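import Vale.Agent.P155.B.DomF
import Vale.Agent.P155.A.TempMain

/-!
# P155, block B2: the final statement `Skel.B_dom`
-/

namespace Vale.Agent.P155.Dom

/-- **the estimates of the inverse Kasteleyn matrix of a Temperleyan graph** -/
theorem b_dom : Skel.B_dom := dom_of_det Temp.det_KM_ne_zero

end Vale.Agent.P155.Dom
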