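import Vale.Agent.P155.B.Push

/-!
# P155, block B3: unsigned monomer ratios grow at most linearly in the bulk
-/

namespace Vale.Agent.P155.B3

open Finset Vale.Agent.P155 Vale.Agent.P155.SW Vale.Agent.P155.Skel

/-- the monomer ratio -/
noncomputable def MD (V : Finset Pt) (w b : Pt) : ℝ := (Z (V \ {w, b}) : ℝ) / Z V

theorem MD_nonneg (V : Finset Pt) (w b : Pt) : 0 ≤ MD V w b := by unfold MD; positivity

theorem MD_comm (V : Finset Pt) (w b : Pt) : MD V w b = MD V b w := by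
  unfold MD; rw [Finset.pair_comm]

theorem card_nbrs4 (v : Pt) : (nbrs v).card = 4 := by
  have := sum_nbrs v (fun _ => (1 : ℕ))
  rw [card_eq_sum_ones, this]
  rfl

theorem MD_push {V : Finset Pt} {w b w1 : Pt} (hbV : b ∈ V) (hw1V : w1 ∈ V)
    (hwW : White w) (hbB : Black b) (hw1W : White w1) (hw1w : w1 ≠ w) (ha : Adj b w1) {B : ℝ}
    (hB : ∀ b1 ∈ (nbrs w1).erase b, MD V w b1 ≤ B) : MD V w b ≤ 3 * B := by
  classical
  have h := Z_push hbV hw1V hwW hbB hw1W hw1w ha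
  have h1 : MD V w b ≤ ∑ b1 ∈ (nbrs w1).erase b, MD V w b1 := by
    unfold MD
    rw [← Finset.sum_div]
    refine div_le_div_of_nonneg_right ?_ (by positivity)
    exact_mod_cast h
  refine h1.trans ?_
  have hc : ((nbrs w1).erase b).card = 3 := by
    rw [card_erase_of_mem (mem_nbrs.2 (adj_comm.1 ha)), card_nbrs4]
  calc _ ≤ ∑ b1 ∈ (nbrs w1).erase b, B := sum_le_sum hB
    _ = 3 * B := by rw [sum_const, hc, nsmul_eq_mul]; norm_num

/-! ### far points -/

theorem alead_lower {z : Pt} {n : ℕ} (hn : 7 ≤ n)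
    (hz : (Odd z.1 ∧ (n : ℝ) - 1 ≤ |(z.1 : ℝ)|) ∨ (¬ Odd z.1 ∧ (n : ℝ) - 1 ≤ |(z.2 : ℝ)|))
    (h1 : |(z.1 : ℝ)| ≤ n + 1) (h2 : |(z.2 : ℝ)| ≤ n + 1) :
    3 / 32 / ((n : ℝ) + 1) ≤ |Alead z| := by
  have hn' : (7 : ℝ) ≤ n := by exact_mod_cast hn
  have hsq1 : (z.1 : ℝ) ^ 2 ≤ (n + 1) ^ 2 := by
    rw [← sq_abs]; exact pow_le_pow_left₀ (abs_nonneg _) h1 2
  have hsq2 : (z.2 : ℝ) ^ 2 ≤ (n + 1) ^ 2 := by
    rw [← sq_abs (z.2 : ℝ)]; exact pow_le_pow_left₀ (abs_nonneg _) h2 2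
  have hnsq : nsq z ≤ 2 * ((n : ℝ) + 1) ^ 2 := by unfold nsq; linarith
  have hpi := Real.pi_pos
  have hpi4 := Real.pi_le_four
  have key : ∀ x : ℝ, (n : ℝ) - 1 ≤ |x| → x ^ 2 ≤ nsq z →
      3 / 32 / ((n : ℝ) + 1) ≤ |x / (Real.pi * nsq z)| := by
    intro x hx hxn
    have hx0 : (6 : ℝ) ≤ |x| := by linarith
    have hpos : 0 < nsq z := by
      have : 0 < x ^ 2 := by rw [← sq_abs]; positivity
      linarith
    rw [abs_div, abs_of_pos (by positivity : 0 < Real.pi * nsq z), div_div,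
      div_le_div_iff₀ (by positivity) (by positivity)]
    have hx34 : 3 / 4 * ((n : ℝ) + 1) ≤ |x| := by linarith
    calc 3 * (Real.pi * nsq z) ≤ 3 * (4 * (2 * ((n : ℝ) + 1) ^ 2)) := by gcongr
      _ = 3 / 4 * ((n : ℝ) + 1) * (32 * ((n : ℝ) + 1)) := by ring
      _ ≤ |x| * (32 * ((n : ℝ) + 1)) := by gcongr
  unfold Alead
  rcases hz with ⟨ho, hz⟩ | ⟨ho, hz⟩
  · rw [if_pos ho]
    refine key _ hz ?_
    unfold nsq
    nlinarith [sq_nonneg (z.2 : ℝ)]
  · rw [if_neg ho]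
    refine key _ hz ?_
    unfold nsq
    nlinarith [sq_nonneg (z.1 : ℝ)]

theorem abs_Kp (A : Pt → ℝ) (b w : Pt) : |Kp A b w| = |A (b - w)| := by
  unfold Kp
  rw [abs_mul]
  split_ifs
  · simp
  · have : |sg w.2| = 1 := by
      unfold sg; split_ifs <;> norm_num
    rw [this, one_mul]

/-- the choice of the neighbours: `z = D` or `z = D + (1,-1)` with `D = w - b` -/
theorem choose_z (D : Pt) (hD : Odd (D.1 + D.2)) {n : ℕ} (hn : max D.1.natAbs D.2.natAbs = n) :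
    ∃ s : ℤ, (s = 0 ∨ s = 1) ∧
      ((Odd (D.1 + s) ∧ (n : ℤ) - 1 ≤ |D.1 + s|) ∨ (¬ Odd (D.1 + s) ∧ (n : ℤ) - 1 ≤ |D.2 - s|)) ∧
      |D.1 + s| ≤ n + 1 ∧ |D.2 - s| ≤ n + 1 := by
  obtain ⟨x, y⟩ := D
  simp only at *
  have hxn : |x| = (x.natAbs : ℤ) := Int.abs_eq_natAbs x
  have hyn : |y| = (y.natAbs : ℤ) := Int.abs_eq_natAbs y
  by_cases hdom : y.natAbs ≤ x.natAbs
  · have e : n = x.natAbs := by omega
    rcases Int.even_or_odd x with hx | hx
    · refine ⟨1, Or.inr rfl, Or.inl ⟨hx.add_one, ?_⟩, ?_, ?_⟩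
      · rw [abs_eq_max_neg]; omega
      · rw [abs_eq_max_neg]; omega
      · rw [abs_eq_max_neg]; omega
    · refine ⟨0, Or.inl rfl, Or.inl ⟨by rwa [add_zero], ?_⟩, ?_, ?_⟩
      · rw [abs_eq_max_neg]; omega
      · rw [abs_eq_max_neg]; omega
      · rw [abs_eq_max_neg]; omega
  · have e : n = y.natAbs := by omega
    rcases Int.even_or_odd y with hy | hy
    · have hx : Odd x := by
        rw [Int.odd_add] at hD; exact hD.2 hy
      refine ⟨1, Or.inr rfl, Or.inr ⟨?_, ?_⟩, ?_, ?_⟩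
      · rw [Int.not_odd_iff_even]; exact hx.add_one
      · rw [abs_eq_max_neg]; omega
      · rw [abs_eq_max_neg]; omega
      · rw [abs_eq_max_neg]; omega
    · have hx : Even x := by
        rw [add_comm, Int.odd_add] at hD; exact hD.1 hy
      refine ⟨0, Or.inl rfl, Or.inr ⟨?_, ?_⟩, ?_, ?_⟩
      · rw [add_zero, Int.not_odd_iff_even]; exact hx
      · rw [abs_eq_max_neg]; omega
      · rw [abs_eq_max_neg]; omega
      · rw [abs_eq_max_neg]; omega

/-- the far estimate -/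
theorem far (hswap : A_swap) (hle : A_le) {A : Pt → ℝ} {CA CB : ℝ} (hCA : 0 ≤ CA)
    (hA : ∀ z : Pt, Odd (z.1 + z.2) → |A z - Alead z| ≤ CA / nsq z)
    (hdom : ∀ (T : Temp) (w b : Pt), White w → Black b → w ∈ T.V → b ∈ T.V →
      2 * dn b w ≤ dF T.faceSet w → |Kinv T.V b w - Kp A b w| ≤ CB / (1 + dF T.faceSet w))
    (T : Temp) {w b : Pt} (hw : White w) (hb : Black b) (hn7 : 7 ≤ dn b w)
    (hn : 90 * CA ≤ dn b w) {C1 : ℝ} (hC1 : 4 ≤ C1) (hC1' : 50 * CB + 1 ≤ C1)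
    (hd : C1 * (1 + dn b w) ≤ dF T.faceSet w) : MD T.V w b ≤ 40 * (1 + dn b w) := by
  have hn0 : (7 : ℝ) ≤ dn b w := by exact_mod_cast hn7
  by_cases hZ : Z T.V = 0
  · unfold MD; rw [hZ, Nat.cast_zero, div_zero]; positivity
  have hZ' : (0 : ℝ) < Z T.V := by exact_mod_cast Nat.pos_of_ne_zero hZ
  set n := dn b w with hndef
  have hD : Odd ((w.1 - b.1) + (w.2 - b.2)) := by
    obtain ⟨k, hk⟩ := hw
    obtain ⟨l, hl⟩ := hb
    exact ⟨k - l, by omega⟩
  have hmax : max (w.1 - b.1).natAbs (w.2 - b.2).natAbs = n := by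
    rw [hndef, G45.dn_eq]; omega
  obtain ⟨s, hs, hz, hz1, hz2⟩ := choose_z (w.1 - b.1, w.2 - b.2) hD hmax
  simp only at hz hz1 hz2
  -- the neighbours
  set b0 : Pt := (w.1 + 1, w.2) with hb0
  set w' : Pt := (b.1 + 1 - s, b.2 + s) with hw'
  have hadj : Adj w b0 := by rw [hb0]; unfold Adj; simp
  have hadj' : Adj w' b := by
    rw [hw']; unfold Adj
    rcases hs with rfl | rfl <;> simp
  have hw'W : White w' := white_of_adj hb hadj'
  have hb0B : Black b0 := black_of_adj hw hadj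
  -- distances
  have hF := exists_out T
  have hdist1 : dn w w' ≤ n + 1 := by
    rw [G45.dn_eq, hw']; simp only
    rw [G45.dn_eq] at hndef
    rcases hs with rfl | rfl <;> omega
  have hdist2 : dn b0 w' ≤ n + 1 := by
    rw [G45.dn_eq, hw', hb0]; simp only
    rw [Int.abs_eq_natAbs] at hz1 hz2
    have e1 : (w.1 + 1 - (b.1 + 1 - s)) = w.1 - b.1 + s := by ring
    have e2 : (w.2 - (b.2 + s)) = w.2 - b.2 - s := by ring
    rw [e1, e2]; omega
  have hdist3 : dn w b0 ≤ 1 := by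
    rw [G45.dn_eq, hb0]; simp only; omega
  have hdist4 : dn w b ≤ n := by rw [G45.dn_comm]
  have hbig : 4 * (1 + n) ≤ dF T.faceSet w := by
    have : (4 : ℝ) * (1 + n) ≤ dF T.faceSet w := by nlinarith
    exact_mod_cast this
  have hl1 := G45.dF_lip hF w w'
  have hl2 := G45.dF_lip hF w b0
  have hl3 := G45.dF_lip hF w b
  have hwV : w ∈ T.V := mem_V_of_dF (by omega)
  have hbV : b ∈ T.V := mem_V_of_dF (by omega)
  have hw'V : w' ∈ T.V := mem_V_of_dF (by omega)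
  have hb0V : b0 ∈ T.V := mem_V_of_dF (by omega)
  -- the plane inverse
  have hzodd : Odd ((b0 - w').1 + (b0 - w').2) := by
    have e : (b0 - w').1 + (b0 - w').2 = (w.1 - b.1) + (w.2 - b.2) := by
      rw [hb0, hw']; simp only [Prod.fst_sub, Prod.snd_sub]; ring
    rw [e]; exact hD
  have ez1 : (b0 - w').1 = w.1 - b.1 + s := by
    rw [hb0, hw']; simp only [Prod.fst_sub]; ring
  have ez2 : (b0 - w').2 = w.2 - b.2 - s := by
    rw [hb0, hw']; simp only [Prod.snd_sub]; ring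
  have hcast : ∀ k : ℤ, |(k : ℝ)| = ((|k| : ℤ) : ℝ) := fun k => by push_cast; rfl
  have hz1' : |((b0 - w').1 : ℝ)| ≤ n + 1 := by
    rw [ez1, hcast]; exact_mod_cast hz1
  have hz2' : |((b0 - w').2 : ℝ)| ≤ n + 1 := by
    rw [ez2, hcast]; exact_mod_cast hz2
  have hz' : (Odd (b0 - w').1 ∧ (n : ℝ) - 1 ≤ |((b0 - w').1 : ℝ)|)
      ∨ (¬ Odd (b0 - w').1 ∧ (n : ℝ) - 1 ≤ |((b0 - w').2 : ℝ)|) := by
    rw [ez1, ez2, hcast, hcast]
    rcases hz with h | h
    · left; exact ⟨h.1, by exact_mod_cast h.2⟩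
    · right; exact ⟨h.1, by exact_mod_cast h.2⟩
  have hlow := alead_lower hn7 hz' hz1' hz2'
  have hAz := hA _ hzodd
  have hnsq : ((n : ℝ) - 1) ^ 2 ≤ nsq (b0 - w') := by
    unfold nsq
    have hn1 : (0 : ℝ) ≤ (n : ℝ) - 1 := by linarith
    rcases hz' with h | h
    · have := pow_le_pow_left₀ hn1 h.2 2
      rw [sq_abs] at this
      nlinarith [sq_nonneg ((b0 - w').2 : ℝ)]
    · have := pow_le_pow_left₀ hn1 h.2 2
      rw [sq_abs] at this
      nlinarith [sq_nonneg ((b0 - w').1 : ℝ)]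
  have hKd := hdom T w' b0 hw'W hb0B hw'V hb0V (by omega)
  have hdFw' : (C1 - 1) * (1 + (n : ℝ)) ≤ 1 + dF T.faceSet w' := by
    have h1 : (dF T.faceSet w : ℝ) ≤ dF T.faceSet w' + (n + 1) := by
      have : dF T.faceSet w ≤ dF T.faceSet w' + (n + 1) := by omega
      exact_mod_cast this
    linarith
  have hN : (0 : ℝ) < 1 + n := by linarith
  have hT1 : CB / (1 + dF T.faceSet w') ≤ 1 / 50 / (1 + n) := by
    rw [div_div, div_le_div_iff₀ (by positivity) (by positivity), one_mul]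
    calc CB * (50 * (1 + (n : ℝ))) = (50 * CB) * (1 + n) := by ring
      _ ≤ (C1 - 1) * (1 + n) := by
          refine mul_le_mul_of_nonneg_right ?_ hN.le
          linarith
      _ ≤ _ := hdFw'
  have hT2 : CA / nsq (b0 - w') ≤ 1 / 50 / (1 + n) := by
    have hpos : (0 : ℝ) < ((n : ℝ) - 1) ^ 2 := by
      have : (0 : ℝ) < (n : ℝ) - 1 := by linarith
      positivity
    refine (div_le_div_of_nonneg_left hCA hpos hnsq).trans ?_
    rw [div_div, div_le_div_iff₀ hpos (by positivity), one_mul]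
    -- `50 CA (1+n) ≤ (n-1)²`
    have h34 : 3 / 4 * (1 + (n : ℝ)) ≤ (n : ℝ) - 1 := by linarith
    have h5 : 90 * CA ≤ 1 + (n : ℝ) := by linarith
    calc CA * (50 * (1 + (n : ℝ))) ≤ ((1 + (n : ℝ)) / 90) * (50 * (1 + (n : ℝ))) := by
          refine mul_le_mul_of_nonneg_right ?_ (by positivity)
          linarith
      _ = 5 / 9 * (1 + (n : ℝ)) ^ 2 := by ring
      _ ≤ (3 / 4 * (1 + (n : ℝ))) ^ 2 := by nlinarith
      _ ≤ _ := pow_le_pow_left₀ (by positivity) h34 2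
  have hK : 1 / 20 / (1 + (n : ℝ)) ≤ |Kinv T.V b0 w'| := by
    have h1 : |Kp A b0 w'| ≤ |Kinv T.V b0 w'| + CB / (1 + dF T.faceSet w') := by
      have := abs_sub_abs_le_abs_sub (Kp A b0 w') (Kinv T.V b0 w')
      rw [abs_sub_comm] at this
      linarith
    have h2 : |Alead (b0 - w')| ≤ |A (b0 - w')| + CA / nsq (b0 - w') := by
      have := abs_sub_abs_le_abs_sub (Alead (b0 - w')) (A (b0 - w'))
      rw [abs_sub_comm] at this
      linarith
    rw [abs_Kp] at h1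
    have e3 : (3 : ℝ) / 32 / ((n : ℝ) + 1) = 3 / 32 / (1 + n) := by rw [add_comm (n : ℝ) 1]
    rw [e3] at hlow
    have e4 : (3 : ℝ) / 32 / (1 + n) - 1 / 50 / (1 + n) - 1 / 50 / (1 + n)
        = (3 / 32 - 1 / 50 - 1 / 50) / (1 + n) := by ring
    have e5 : (1 : ℝ) / 20 / (1 + n) ≤ (3 / 32 - 1 / 50 - 1 / 50) / (1 + n) :=
      div_le_div_of_nonneg_right (by norm_num) hN.le
    linarith
  -- signed at most unsigned
  have hSub : Sub T T.V := by
    have hc : 0 < (PM T.V).card := Nat.pos_of_ne_zero hZ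
    obtain ⟨m, hm⟩ := Finset.card_pos.1 hc
    exact ⟨m, hm, fun v hv => ⟨hv, pm_mem (mem_PM.1 hm) hv⟩⟩
  have hM := hle T T.V hSub b0 w' hb0V hw'V hb0B hw'W
  -- swap
  have hne1 : w ≠ w' := by
    intro h
    have h1 := congrArg Prod.fst h
    have h2 := congrArg Prod.snd h
    rw [hw'] at h1 h2
    simp only at h1 h2
    rw [G45.dn_eq] at hndef
    rcases hs with rfl | rfl <;> omega
  have hne2 : b0 ≠ b := by
    intro h
    have h1 := congrArg Prod.fst h
    have h2 := congrArg Prod.snd h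
    rw [hb0] at h1 h2
    simp only at h1 h2
    rw [G45.dn_eq] at hndef
    omega
  have hsw := hswap T.V w b b0 w' hwV hbV hb0V hw'V hw hw'W hadj hadj' hne1 hne2
  have hsw' : MD T.V w b * MD T.V w' b0 ≤ 2 := by
    unfold MD
    rw [div_mul_div_comm, div_le_iff₀ (by positivity)]
    have e : ({b0, w'} : Finset Pt) = {w', b0} := Finset.pair_comm _ _
    rw [e] at hsw
    have : (Z (T.V \ {w, b}) : ℝ) * Z (T.V \ {w', b0}) ≤ 2 * (Z T.V : ℝ) ^ 2 := by
      exact_mod_cast hsw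
    linarith [this]
  have hM' : 1 / 20 / (1 + (n : ℝ)) ≤ MD T.V w' b0 := hK.trans hM
  have h20 : (0 : ℝ) < 1 / 20 / (1 + (n : ℝ)) := by positivity
  have h1 : MD T.V w b * (1 / 20 / (1 + (n : ℝ))) ≤ 2 :=
    (mul_le_mul_of_nonneg_left hM' (MD_nonneg _ _ _)).trans hsw'
  have h2 : MD T.V w b = MD T.V w b * (1 / 20 / (1 + (n : ℝ))) * (20 * (1 + n)) := by
    field_simp
  rw [h2]
  calc _ ≤ 2 * (20 * (1 + (n : ℝ))) := mul_le_mul_of_nonneg_right h1 (by positivity)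
    _ = _ := by ring

/-! ### near points -/

/-- an outward neighbour -/
theorem exists_outward (w b : Pt) : ∃ w1, Adj b w1 ∧ dn w1 w = dn b w + 1 ∧
    ∀ b1 ∈ nbrs w1, b1 ≠ b → dn b w + 1 ≤ dn b1 w ∧ dn b1 w ≤ dn b w + 2 := by
  obtain ⟨x, y⟩ := b
  obtain ⟨p, q⟩ := w
  have main : ∀ w1 : Pt, (w1 = (x + 1, y) ∧ p ≤ x ∧ (y - q).natAbs ≤ (x - p).natAbs) ∨
      (w1 = (x - 1, y) ∧ x ≤ p ∧ (y - q).natAbs ≤ (x - p).natAbs) ∨
      (w1 = (x, y + 1) ∧ q ≤ y ∧ (x - p).natAbs ≤ (y - q).natAbs) ∨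
      (w1 = (x, y - 1) ∧ y ≤ q ∧ (x - p).natAbs ≤ (y - q).natAbs) →
      Adj (x, y) w1 ∧ dn w1 (p, q) = dn (x, y) (p, q) + 1 ∧
        ∀ b1 ∈ nbrs w1, b1 ≠ (x, y) → dn (x, y) (p, q) + 1 ≤ dn b1 (p, q) ∧
          dn b1 (p, q) ≤ dn (x, y) (p, q) + 2 := by
    intro w1 h
    simp only [G45.dn_eq]
    rcases h with ⟨rfl, h1, h2⟩ | ⟨rfl, h1, h2⟩ | ⟨rfl, h1, h2⟩ | ⟨rfl, h1, h2⟩
    all_goals
      refine ⟨by unfold Adj; simp, by simp only; omega, ?_⟩
      intro b1 hb1 hne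
      simp only [nbrs, mem_insert, mem_singleton] at hb1
      rcases hb1 with rfl | rfl | rfl | rfl
      all_goals
        first
          | (exfalso; apply hne; rw [Prod.mk.injEq]; constructor <;> omega)
          | (simp only; omega)
  rcases le_total (y - q).natAbs (x - p).natAbs with h | h
  · rcases le_total p x with h' | h'
    · exact ⟨_, main _ (Or.inl ⟨rfl, h', h⟩)⟩
    · exact ⟨_, main _ (Or.inr (Or.inl ⟨rfl, h', h⟩))⟩
  · rcases le_total q y with h' | h'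
    · exact ⟨_, main _ (Or.inr (Or.inr (Or.inl ⟨rfl, h', h⟩)))⟩
    · exact ⟨_, main _ (Or.inr (Or.inr (Or.inr ⟨rfl, h', h⟩)))⟩

theorem near {T : Temp} {w : Pt} (hw : White w) {D0 : ℕ} {B : ℝ} (hB0 : 0 ≤ B)
    (hd : D0 + 5 ≤ dF T.faceSet w)
    (hB : ∀ b, Black b → D0 ≤ dn b w → dn b w ≤ D0 + 2 → MD T.V w b ≤ B) :
    ∀ k : ℕ, ∀ b, Black b → D0 ≤ dn b w + k → dn b w ≤ D0 + 2 → MD T.V w b ≤ 3 ^ k * B := by
  intro k
  have hF := exists_out T
  induction k with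
  | zero =>
    intro b hb h1 h2
    rw [pow_zero, one_mul]
    exact hB b hb (by omega) h2
  | succ k ih =>
    intro b hb h1 h2
    by_cases h3 : D0 ≤ dn b w + k
    · refine (ih b hb h3 h2).trans ?_
      rw [pow_succ]
      have : 0 ≤ 3 ^ k * B := by positivity
      linarith
    · obtain ⟨w1, ha, hd1, hn⟩ := exists_outward w b
      have hl1 := G45.dF_lip hF w b
      have hl2 := G45.dF_lip hF w w1
      have hc1 := G45.dn_comm w b
      have hc2 := G45.dn_comm w w1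
      have hbV : b ∈ T.V := mem_V_of_dF (by omega)
      have hw1V : w1 ∈ T.V := mem_V_of_dF (by omega)
      have hw1W : White w1 := ha.white hb
      have hne : w1 ≠ w := by
        rintro rfl
        rw [G45.dn_self] at hd1
        omega
      have := MD_push hbV hw1V hw hb hw1W hne ha (B := 3 ^ k * B) (by
        intro b1 hb1
        rw [mem_erase] at hb1
        obtain ⟨h4, h5⟩ := hn b1 hb1.2 hb1.1
        exact ih b1 ((mem_nbrs.1 hb1.2).black hw1W) (by omega) (by omega))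
      rw [pow_succ]
      linarith

/-- **B3** -/
theorem b_mono (hswap : A_swap) (hle : A_le) (hpl : B_plane) (hdom : B_dom) : B_mono := by
  obtain ⟨A, hA⟩ := hpl
  obtain ⟨CA0, hA0⟩ := hA.asymp
  obtain ⟨CB0, hB0⟩ := hdom A hA
  have hCA : 0 ≤ max CA0 0 := le_max_right _ _
  have hCB : 0 ≤ max CB0 0 := le_max_right _ _
  have hA1 : ∀ z : Pt, Odd (z.1 + z.2) → |A z - Alead z| ≤ max CA0 0 / nsq z := fun z hz =>
    (hA0 z hz).trans (div_le_div_of_nonneg_right (le_max_left _ _) (by unfold nsq; positivity))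
  have hB1 : ∀ (T : Temp) (w b : Pt), White w → Black b → w ∈ T.V → b ∈ T.V →
      2 * dn b w ≤ dF T.faceSet w →
      |Kinv T.V b w - Kp A b w| ≤ max CB0 0 / (1 + dF T.faceSet w) := fun T w b h1 h2 h3 h4 h5 =>
    ((hB0 T w b h1 h2 h3 h4).2.1 h5).trans
      (div_le_div_of_nonneg_right (le_max_left _ _) (by positivity))
  set CA := max CA0 0
  set CB := max CB0 0
  obtain ⟨D1, hD1⟩ := exists_nat_ge (90 * CA)
  set D0 := max 7 D1 with hD0
  have hD7 : 7 ≤ D0 := le_max_left _ _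
  have hDA : 90 * CA ≤ D0 := hD1.trans (by exact_mod_cast le_max_right 7 D1)
  set C1 := 50 * CB + 4 with hC1
  have hC14 : 4 ≤ C1 := by rw [hC1]; linarith
  have hC11 : 50 * CB + 1 ≤ C1 := by rw [hC1]; linarith
  set B : ℝ := 40 * (1 + ((D0 : ℝ) + 2)) with hBdef
  have hBpos : 0 ≤ B := by rw [hBdef]; positivity
  refine ⟨C1 * (D0 + 4) + 3 ^ D0 * B + 40, ?_⟩
  intro T w b hw hb _ _ hd
  change MD T.V w b ≤ _
  set C := C1 * ((D0 : ℝ) + 4) + 3 ^ D0 * B + 40 with hC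
  have hX : 0 ≤ C1 * ((D0 : ℝ) + 4) := by positivity
  have hY : 0 ≤ 3 ^ D0 * B := by positivity
  have hC0 : 0 ≤ C := by rw [hC]; positivity
  have hCd : C ≤ dF T.faceSet w := by
    have : C * 1 ≤ C * (1 + dn b w) := by
      refine mul_le_mul_of_nonneg_left ?_ hC0
      have : (0 : ℝ) ≤ dn b w := by positivity
      linarith
    linarith
  have hfar : ∀ b, Black b → D0 ≤ dn b w → C1 * (1 + dn b w) ≤ dF T.faceSet w →
      MD T.V w b ≤ 40 * (1 + dn b w) := by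
    intro b hb h1 h2
    refine far hswap hle hCA hA1 hB1 T hw hb (hD7.trans h1) ?_ hC14 hC11 h2
    exact hDA.trans (by exact_mod_cast h1)
  rcases le_or_gt D0 (dn b w) with h | h
  · refine (hfar b hb h ?_).trans ?_
    · refine le_trans ?_ hd
      refine mul_le_mul_of_nonneg_right ?_ (by positivity)
      rw [hC]
      nlinarith
    · refine mul_le_mul_of_nonneg_right ?_ (by positivity)
      rw [hC]; linarith
  · have hdn : D0 + 5 ≤ dF T.faceSet w := by
      have : ((D0 : ℝ) + 5) ≤ dF T.faceSet w := by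
        refine le_trans ?_ hCd
        rw [hC]
        nlinarith
      exact_mod_cast this
    have := near (T := T) hw (D0 := D0) hBpos hdn (fun b hb h1 h2 => by
      have h2' : (dn b w : ℝ) ≤ D0 + 2 := by exact_mod_cast h2
      refine (hfar b hb h1 ?_).trans ?_
      · refine le_trans ?_ hCd
        rw [hC]
        have : C1 * (1 + (dn b w : ℝ)) ≤ C1 * ((D0 : ℝ) + 4) :=
          mul_le_mul_of_nonneg_left (by linarith) (by linarith)
        linarith
      · rw [hBdef]; linarith) D0 b hb (by omega) (by omega)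
    refine this.trans ?_
    have h3 : 3 ^ D0 * B ≤ C := by rw [hC]; linarith
    have h4 : C * 1 ≤ C * (1 + dn b w) := by
      refine mul_le_mul_of_nonneg_left ?_ hC0
      have : (0 : ℝ) ≤ dn b w := by positivity
      linarith
    linarith

end Vale.Agent.P155.B3
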