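import Vale.Agent.P155.A.Temp2

/-!
# P155, block B2: weak form, truncation, maximum principles for `K_D⁻¹(·, w0)`
-/

namespace Vale.Agent.P155.Dom

open Finset LatCycle Temp

variable {T : Temp} {w0 : Pt}

/-! ### the two neighbours of a given type -/

theorem pair0 {w : Pt} (hw : White w) : ∃ (p q : Pt) (s : ℝ), s * s = 1 ∧ B0 p ∧ B0 q ∧ Adj w p ∧
    Adj w q ∧ ∀ F : Pt → ℝ, Kop (r0 F) w = s * (F p - F q) := by
  by_cases h : Odd w.1
  · have h2 : Even w.2 := by
      unfold White at hw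
      rw [Int.odd_add] at hw
      exact hw.1 h
    refine ⟨(w.1 + 1, w.2), (w.1 - 1, w.2), 1, by norm_num, ⟨h.add_one, h2⟩,
      ⟨h.sub_odd odd_one, h2⟩, mem_nbrs.1 (by simp [nbrs]), mem_nbrs.1 (by simp [nbrs]), ?_⟩
    intro F
    rw [Kop_r0_eq hw, if_pos h, one_mul]
  · have h1 : Even w.1 := Int.not_odd_iff_even.1 h
    have h2 : Odd w.2 := by
      unfold White at hw
      rw [add_comm, Int.odd_add] at hw
      exact hw.2 h1
    refine ⟨(w.1, w.2 + 1), (w.1, w.2 - 1), sg w.2, sg_sq _, ⟨h1, h2.add_one⟩,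
      ⟨h1, h2.sub_odd odd_one⟩, mem_nbrs.1 (by simp [nbrs]), mem_nbrs.1 (by simp [nbrs]), ?_⟩
    intro F
    rw [Kop_r0_eq hw, if_neg h]

theorem pair1 {w : Pt} (hw : White w) : ∃ (p q : Pt) (s : ℝ), s * s = 1 ∧ B1 p ∧ B1 q ∧ Adj w p ∧
    Adj w q ∧ ∀ F : Pt → ℝ, Kop (r1 F) w = s * (F p - F q) := by
  by_cases h : Odd w.1
  · have h2 : Even w.2 := by
      unfold White at hw
      rw [Int.odd_add] at hw
      exact hw.1 h
    refine ⟨(w.1, w.2 + 1), (w.1, w.2 - 1), 1, by norm_num, ⟨h, h2.add_one⟩,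
      ⟨h, h2.sub_odd odd_one⟩, mem_nbrs.1 (by simp [nbrs]), mem_nbrs.1 (by simp [nbrs]), ?_⟩
    intro F
    rw [Kop_r1_eq hw, if_pos h, one_mul]
  · have h1 : Even w.1 := Int.not_odd_iff_even.1 h
    have h2 : Odd w.2 := by
      unfold White at hw
      rw [add_comm, Int.odd_add] at hw
      exact hw.2 h1
    refine ⟨(w.1 + 1, w.2), (w.1 - 1, w.2), 1, by norm_num, ⟨h1.add_one, h2⟩,
      ⟨h1.sub_odd odd_one, h2⟩, mem_nbrs.1 (by simp [nbrs]), mem_nbrs.1 (by simp [nbrs]), ?_⟩
    intro F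
    rw [Kop_r1_eq hw, if_neg h, one_mul]

/-! ### weak form -/

/-- weak form of the Neumann problem with a dipole of strength `c` at `w0` -/
def Wk0 (T : Temp) (w0 : Pt) (u : Pt → ℝ) (c : ℝ) : Prop := ∀ φ : Pt → ℝ,
  ∑ w ∈ T.C.filter White, Kop (r0 u) w * Kop (r0 φ) w = c * Kop (r0 φ) w0

/-- weak form of the Dirichlet problem with a dipole of strength `c` at `w0` -/
def Wk1 (T : Temp) (w0 : Pt) (u : Pt → ℝ) (c : ℝ) : Prop := ∀ φ : Pt → ℝ,
  (∀ b, B1 b → b ∉ T.C → φ b = 0) →
  ∑ w ∈ T.C.filter White, Kop (r1 u) w * Kop (r1 φ) w = c * Kop (r1 φ) w0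

theorem r0_neg (u : Pt → ℝ) : r0 (fun b => - u b) = fun b => - r0 u b := by
  funext v; unfold r0; split_ifs <;> simp

theorem r1_neg (u : Pt → ℝ) : r1 (fun b => - u b) = fun b => - r1 u b := by
  funext v; unfold r1; split_ifs <;> simp

theorem Kop_neg (u : Pt → ℝ) (w : Pt) : Kop (fun b => - u b) w = - Kop u w := by
  unfold Kop; ring

theorem Wk0.neg {u : Pt → ℝ} {c : ℝ} (h : Wk0 T w0 u c) : Wk0 T w0 (fun b => - u b) (-c) := by
  intro φ
  have := h φ
  rw [r0_neg]
  simp only [Kop_neg]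
  simp only [neg_mul, sum_neg_distrib]
  rw [this]

theorem Wk1.neg {u : Pt → ℝ} {c : ℝ} (h : Wk1 T w0 u c) : Wk1 T w0 (fun b => - u b) (-c) := by
  intro φ hφ
  have := h φ hφ
  rw [r1_neg]
  simp only [Kop_neg]
  simp only [neg_mul, sum_neg_distrib]
  rw [this]

theorem wk0_Kinv (hdet : (KM T.V).det ≠ 0) (hw0 : w0 ∈ T.V) (hwh0 : White w0) :
    Wk0 T w0 (fun b => Kinv T.V b w0) 1 := by
  classical
  intro φ
  set f : Pt → ℝ := fun b => Kinv T.V b w0 with hf
  have hcross : ∑ w ∈ T.C.filter White, Kop (r0 φ) w * Kop (r1 f) w = 0 :=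
    (isCl T).cross_zero (fun b hb hbC => Kinv_B1_off hdet hw0 hwh0 hb hbC) φ
  have h1 : ∑ w ∈ T.C.filter White, Kop f w * Kop (r0 φ) w = Kop (r0 φ) w0 := by
    have : ∀ w ∈ T.C.filter White, Kop f w * Kop (r0 φ) w = if w = w0 then Kop (r0 φ) w0 else 0 := by
      intro w hw
      obtain ⟨hwC, hwh⟩ := mem_filter.1 hw
      rw [hf, Kop_Kinv hdet hw0 ((white_mem_V hwh).2 hwC) hwh]
      split_ifs with h
      · rw [h, one_mul]
      · rw [zero_mul]
    rw [sum_congr rfl this, sum_ite_eq', if_pos]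
    exact mem_filter.2 ⟨(white_mem_V hwh0).1 hw0, hwh0⟩
  have h2 : ∑ w ∈ T.C.filter White, Kop f w * Kop (r0 φ) w
      = ∑ w ∈ T.C.filter White, Kop (r0 f) w * Kop (r0 φ) w
        + ∑ w ∈ T.C.filter White, Kop (r0 φ) w * Kop (r1 f) w := by
    rw [← sum_add_distrib]
    refine sum_congr rfl fun w hw => ?_
    rw [Kop_split (mem_filter.1 hw).2]
    ring
  rw [hcross, add_zero] at h2
  rw [← h2, h1, one_mul]

theorem wk1_Kinv (hdet : (KM T.V).det ≠ 0) (hw0 : w0 ∈ T.V) (hwh0 : White w0) :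
    Wk1 T w0 (fun b => Kinv T.V b w0) 1 := by
  classical
  intro φ hφ
  set f : Pt → ℝ := fun b => Kinv T.V b w0 with hf
  have hcross : ∑ w ∈ T.C.filter White, Kop (r0 f) w * Kop (r1 φ) w = 0 :=
    (isCl T).cross_zero hφ f
  have h1 : ∑ w ∈ T.C.filter White, Kop f w * Kop (r1 φ) w = Kop (r1 φ) w0 := by
    have : ∀ w ∈ T.C.filter White, Kop f w * Kop (r1 φ) w = if w = w0 then Kop (r1 φ) w0 else 0 := by
      intro w hw
      obtain ⟨hwC, hwh⟩ := mem_filter.1 hw
      rw [hf, Kop_Kinv hdet hw0 ((white_mem_V hwh).2 hwC) hwh]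
      split_ifs with h
      · rw [h, one_mul]
      · rw [zero_mul]
    rw [sum_congr rfl this, sum_ite_eq', if_pos]
    exact mem_filter.2 ⟨(white_mem_V hwh0).1 hw0, hwh0⟩
  have h2 : ∑ w ∈ T.C.filter White, Kop f w * Kop (r1 φ) w
      = ∑ w ∈ T.C.filter White, Kop (r1 f) w * Kop (r1 φ) w
        + ∑ w ∈ T.C.filter White, Kop (r0 f) w * Kop (r1 φ) w := by
    rw [← sum_add_distrib]
    refine sum_congr rfl fun w hw => ?_
    rw [Kop_split (mem_filter.1 hw).2]
    ring
  rw [hcross, add_zero] at h2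
  rw [← h2, h1, one_mul]

/-! ### truncation -/

theorem trunc0 {u φ : Pt → ℝ} {c : ℝ} (hu : Wk0 T w0 u c)
    (h : ∀ w ∈ T.C, White w → Kop (r0 φ) w ^ 2 ≤ Kop (r0 u) w * Kop (r0 φ) w)
    (h0 : Kop (r0 φ) w0 = 0) {b : Pt} (hb : b ∈ T.C) (hb0 : B0 b) : φ b = φ T.v0 := by
  have h1 : ∑ w ∈ T.C.filter White, Kop (r0 φ) w ^ 2 ≤ 0 := by
    calc _ ≤ ∑ w ∈ T.C.filter White, Kop (r0 u) w * Kop (r0 φ) w :=
          sum_le_sum fun w hw => h w (mem_filter.1 hw).1 (mem_filter.1 hw).2
      _ = 0 := by rw [hu φ, h0, mul_zero]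
  have h2 : ∑ w ∈ T.C.filter White, Kop (r0 φ) w ^ 2 = 0 :=
    le_antisymm h1 (sum_nonneg fun _ _ => sq_nonneg _)
  rw [sum_eq_zero_iff_of_nonneg fun _ _ => sq_nonneg _] at h2
  refine (flat_of_zero fun w hw hwh => ?_).eq hb hb0
  exact pow_eq_zero_iff (by norm_num) |>.1 (h2 w (mem_filter.2 ⟨hw, hwh⟩))

theorem trunc1 {u φ : Pt → ℝ} {c : ℝ} (hu : Wk1 T w0 u c) (hφ : ∀ b, B1 b → b ∉ T.C → φ b = 0)
    (h : ∀ w ∈ T.C, White w → Kop (r1 φ) w ^ 2 ≤ Kop (r1 u) w * Kop (r1 φ) w)
    (h0 : Kop (r1 φ) w0 = 0) {b : Pt} (hb1 : B1 b) : φ b = 0 := by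
  have h1 : ∑ w ∈ T.C.filter White, Kop (r1 φ) w ^ 2 ≤ 0 := by
    calc _ ≤ ∑ w ∈ T.C.filter White, Kop (r1 u) w * Kop (r1 φ) w :=
          sum_le_sum fun w hw => h w (mem_filter.1 hw).1 (mem_filter.1 hw).2
      _ = 0 := by rw [hu φ hφ, h0, mul_zero]
  have h2 : ∑ w ∈ T.C.filter White, Kop (r1 φ) w ^ 2 = 0 :=
    le_antisymm h1 (sum_nonneg fun _ _ => sq_nonneg _)
  rw [sum_eq_zero_iff_of_nonneg fun _ _ => sq_nonneg _] at h2
  refine B1_zero hφ (fun w hw hwh => ?_) hb1
  exact pow_eq_zero_iff (by norm_num) |>.1 (h2 w (mem_filter.2 ⟨hw, hwh⟩))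

/-- the elementary inequality behind truncation from above -/
theorem max_ineq (x y m : ℝ) :
    (max (x - m) 0 - max (y - m) 0) ^ 2 ≤ (x - y) * (max (x - m) 0 - max (y - m) 0) := by
  rcases le_total (x - m) 0 with h1 | h1 <;> rcases le_total (y - m) 0 with h2 | h2
  · rw [max_eq_right h1, max_eq_right h2]; simp
  · rw [max_eq_right h1, max_eq_left h2]; nlinarith
  · rw [max_eq_left h1, max_eq_right h2]; nlinarith
  · rw [max_eq_left h1, max_eq_left h2]; nlinarith

theorem min_ineq (x y m : ℝ) :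
    (min x m - min y m) ^ 2 ≤ (x - y) * (min x m - min y m) := by
  rcases le_total x m with h1 | h1 <;> rcases le_total y m with h2 | h2
  · rw [min_eq_left h1, min_eq_left h2]; nlinarith
  · rw [min_eq_left h1, min_eq_right h2]; nlinarith
  · rw [min_eq_right h1, min_eq_left h2]; nlinarith
  · rw [min_eq_right h1, min_eq_right h2]; simp

theorem sgn_ineq {s a b c d : ℝ} (hs : s * s = 1) (h : (a - b) ^ 2 ≤ (c - d) * (a - b)) :
    (s * (a - b)) ^ 2 ≤ (s * (c - d)) * (s * (a - b)) := by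
  have e1 : (s * (a - b)) ^ 2 = (s * s) * (a - b) ^ 2 := by ring
  have e2 : (s * (c - d)) * (s * (a - b)) = (s * s) * ((c - d) * (a - b)) := by ring
  rw [e1, e2, hs, one_mul, one_mul]
  exact h

/-- **maximum principle off a region `S`**, Neumann case -/
theorem max0 {u : Pt → ℝ} {c m : ℝ} (hu : Wk0 T w0 u c) (hwh0 : White w0) (hw0 : w0 ∈ T.C)
    (S : Set Pt)
    (hring : ∀ w ∈ T.C, White w → ∀ p q, B0 p → B0 q → Adj w p → Adj w q → p ∈ S → q ∉ S → u q ≤ m)
    (hS : ∀ b, B0 b → Adj w0 b → b ∈ S ∨ u b ≤ m) {b : Pt} (hb : b ∈ T.C) (hb0 : B0 b)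
    (hbS : b ∉ S) : u b ≤ m := by
  classical
  set φ : Pt → ℝ := fun v => if v ∈ S then 0 else max (u v - m) 0 with hφ
  obtain ⟨p, q, s, hs, hp, hq, hwp, hwq, hF⟩ := pair0 hwh0
  have hz : ∀ v, B0 v → Adj w0 v → φ v = 0 := by
    intro v hv hadj
    rw [hφ]
    simp only
    split_ifs with h
    · rfl
    · rcases hS v hv hadj with h' | h'
      · exact absurd h' h
      · exact max_eq_right (by linarith)
  have key : ∀ v ∈ T.C, B0 v → φ v = φ T.v0 := by
    intro v hv hv0
    refine trunc0 hu ?_ ?_ hv hv0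
    · intro w hw hwh
      obtain ⟨p, q, s, hs, hp, hq, hwp, hwq, hF⟩ := pair0 hwh
      rw [hF φ, hF u]
      apply sgn_ineq hs
      by_cases h1 : p ∈ S <;> by_cases h2 : q ∈ S
      · simp [hφ, h1, h2]
      · have e : φ q = 0 := by
          rw [hφ]; simp only; rw [if_neg h2]
          exact max_eq_right (by linarith [hring w hw hwh p q hp hq hwp hwq h1 h2])
        have e' : φ p = 0 := by rw [hφ]; simp only; rw [if_pos h1]
        rw [e, e']; simp
      · have e : φ p = 0 := by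
          rw [hφ]; simp only; rw [if_neg h1]
          exact max_eq_right (by linarith [hring w hw hwh q p hq hp hwq hwp h2 h1])
        have e' : φ q = 0 := by rw [hφ]; simp only; rw [if_pos h2]
        rw [e, e']; simp
      · have e1 : φ p = max (u p - m) 0 := by rw [hφ]; simp only; rw [if_neg h1]
        have e2 : φ q = max (u q - m) 0 := by rw [hφ]; simp only; rw [if_neg h2]
        rw [e1, e2]
        exact max_ineq _ _ _
    · rw [hF φ, hz p hp hwp, hz q hq hwq]; simp
  have hpC : p ∈ T.C := (isCl T).edge w0 hw0 hwh0 p hp hwp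
  have h1 := key b hb hb0
  have h2 := key p hpC hp
  rw [hz p hp hwp] at h2
  rw [← h2] at h1
  rw [hφ] at h1
  simp only at h1
  rw [if_neg hbS] at h1
  have := le_max_left (u b - m) 0
  linarith

/-- **maximum principle off a region `S`**, Dirichlet case -/
theorem max1 {u : Pt → ℝ} {c m : ℝ} (hu : Wk1 T w0 u c) (hwh0 : White w0)
    (huC : ∀ b, B1 b → b ∉ T.C → u b = 0) (hm : 0 ≤ m) (S : Set Pt)
    (hring : ∀ w ∈ T.C, White w → ∀ p q, B1 p → B1 q → Adj w p → Adj w q → p ∈ S → q ∉ S → u q ≤ m)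
    (hS : ∀ b, B1 b → Adj w0 b → b ∈ S ∨ u b ≤ m) {b : Pt} (hb1 : B1 b)
    (hbS : b ∉ S) : u b ≤ m := by
  classical
  set φ : Pt → ℝ := fun v => if v ∈ S then 0 else max (u v - m) 0 with hφ
  obtain ⟨p, q, s, hs, hp, hq, hwp, hwq, hF⟩ := pair1 hwh0
  have hz : ∀ v, B1 v → Adj w0 v → φ v = 0 := by
    intro v hv hadj
    rw [hφ]
    simp only
    split_ifs with h
    · rfl
    · rcases hS v hv hadj with h' | h'
      · exact absurd h' h
      · exact max_eq_right (by linarith)
  have key : ∀ v, B1 v → φ v = 0 := by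
    intro v hv0
    refine trunc1 hu ?_ ?_ ?_ hv0
    · intro v hv hvC
      rw [hφ]
      simp only
      split_ifs
      · rfl
      · exact max_eq_right (by rw [huC v hv hvC]; linarith)
    · intro w hw hwh
      obtain ⟨p, q, s, hs, hp, hq, hwp, hwq, hF⟩ := pair1 hwh
      rw [hF φ, hF u]
      apply sgn_ineq hs
      by_cases h1 : p ∈ S <;> by_cases h2 : q ∈ S
      · simp [hφ, h1, h2]
      · have e : φ q = 0 := by
          rw [hφ]; simp only; rw [if_neg h2]
          exact max_eq_right (by linarith [hring w hw hwh p q hp hq hwp hwq h1 h2])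
        have e' : φ p = 0 := by rw [hφ]; simp only; rw [if_pos h1]
        rw [e, e']; simp
      · have e : φ p = 0 := by
          rw [hφ]; simp only; rw [if_neg h1]
          exact max_eq_right (by linarith [hring w hw hwh q p hq hp hwq hwp h2 h1])
        have e' : φ q = 0 := by rw [hφ]; simp only; rw [if_pos h2]
        rw [e, e']; simp
      · have e1 : φ p = max (u p - m) 0 := by rw [hφ]; simp only; rw [if_neg h1]
        have e2 : φ q = max (u q - m) 0 := by rw [hφ]; simp only; rw [if_neg h2]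
        rw [e1, e2]
        exact max_ineq _ _ _
    · rw [hF φ, hz p hp hwp, hz q hq hwq]; simp
  have h1 := key b hb1
  rw [hφ] at h1
  simp only at h1
  rw [if_neg hbS] at h1
  have := le_max_left (u b - m) 0
  linarith

/-- the two (odd,odd) values next to `w0` are not both positive -/
theorem not_both_pos {u : Pt → ℝ} {c : ℝ} (hu : Wk1 T w0 u c)
    (huC : ∀ b, B1 b → b ∉ T.C → u b = 0) {p q : Pt} {s : ℝ}
    (hp : B1 p) (hF : ∀ F : Pt → ℝ, Kop (r1 F) w0 = s * (F p - F q)) :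
    ¬ (0 < u p ∧ 0 < u q) := by
  rintro ⟨h1, h2⟩
  set μ := min (u p) (u q) with hμ
  have hμ0 : 0 < μ := lt_min h1 h2
  have key : (fun v => min (u v) μ) p = 0 := by
    refine trunc1 (φ := fun v => min (u v) μ) hu ?_ ?_ ?_ hp
    · intro v hv hvC
      rw [huC v hv hvC]
      exact min_eq_left hμ0.le
    · intro w hw hwh
      obtain ⟨p, q, s, hs, hp, hq, hwp, hwq, hF⟩ := pair1 hwh
      rw [hF, hF u]
      apply sgn_ineq hs
      exact min_ineq _ _ _
    · rw [hF]
      rw [min_eq_right (min_le_left _ _ : μ ≤ u p), min_eq_right (min_le_right _ _ : μ ≤ u q)]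
      simp
  simp only at key
  rw [min_eq_right (min_le_left _ _ : μ ≤ u p)] at key
  linarith

/-! ### the bound `|K_D⁻¹| ≤ 1` -/

theorem energies (hdet : (KM T.V).det ≠ 0) (hw0 : w0 ∈ T.V) (hwh0 : White w0) :
    |Kop (r0 fun b => Kinv T.V b w0) w0| ≤ 1 ∧ |Kop (r1 fun b => Kinv T.V b w0) w0| ≤ 1 := by
  have e0 := wk0_Kinv hdet hw0 hwh0 (fun b => Kinv T.V b w0)
  have e1 := wk1_Kinv hdet hw0 hwh0 (fun b => Kinv T.V b w0)
    (fun b hb hbC => Kinv_B1_off hdet hw0 hwh0 hb hbC)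
  have e2 := cr_Kinv hdet hw0 hwh0 ((white_mem_V hwh0).1 hw0) hwh0
  rw [if_pos rfl] at e2
  have n0 : 0 ≤ ∑ w ∈ T.C.filter White, Kop (r0 fun b => Kinv T.V b w0) w *
      Kop (r0 fun b => Kinv T.V b w0) w := sum_nonneg fun _ _ => mul_self_nonneg _
  have n1 : 0 ≤ ∑ w ∈ T.C.filter White, Kop (r1 fun b => Kinv T.V b w0) w *
      Kop (r1 fun b => Kinv T.V b w0) w := sum_nonneg fun _ _ => mul_self_nonneg _
  rw [e0, one_mul] at n0
  rw [e1, one_mul] at n1
  rw [abs_of_nonneg n0, abs_of_nonneg n1]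
  constructor <;> linarith

theorem abs_sgn {s x : ℝ} (hs : s * s = 1) : |s * x| = |x| := by
  rw [abs_mul]
  have : |s| * |s| = 1 := by rw [← abs_mul, hs, abs_one]
  have h : |s| = 1 := by nlinarith [abs_nonneg s]
  rw [h, one_mul]

/-- **`|K_D⁻¹(b,w)| ≤ 1`** -/
theorem abs_Kinv_le_one (hdet : (KM T.V).det ≠ 0) (hw0 : w0 ∈ T.V) (hwh0 : White w0) {b : Pt}
    (hbl : Black b) : |Kinv T.V b w0| ≤ 1 := by
  have hw0C : w0 ∈ T.C := (white_mem_V hwh0).1 hw0
  set f : Pt → ℝ := fun b => Kinv T.V b w0 with hf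
  have hk0 := wk0_Kinv hdet hw0 hwh0
  have hk1 := wk1_Kinv hdet hw0 hwh0
  rw [← hf] at hk0 hk1
  obtain ⟨E0, E1⟩ := energies hdet hw0 hwh0
  rw [← hf] at E0 E1
  have hoff : ∀ b, B1 b → b ∉ T.C → f b = 0 := fun b hb hbC => Kinv_B1_off hdet hw0 hwh0 hb hbC
  change |f b| ≤ 1
  rcases black_iff.1 hbl with hb | hb
  · by_cases hbC : b ∈ T.C
    swap
    · have : f b = 0 := Kinv_not_mem_left fun h => hbC (V_subset h)
      rw [this]; norm_num
    obtain ⟨p, q, s, hs, hp, hq, hwp, hwq, hF⟩ := pair0 hwh0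
    rw [hF f, abs_sgn hs] at E0
    have hadj : ∀ v, B0 v → Adj w0 v → v = p ∨ v = q := by
      intro v hv hadj
      by_contra hcon
      push Not at hcon
      have h1 := hF (fun x => if x = v then 1 else 0)
      rw [if_neg hcon.1.symm, if_neg hcon.2.symm, sub_zero, mul_zero, ← sum_nbrs_K] at h1
      rw [sum_eq_single v] at h1
      · rw [r0_of hv, if_pos rfl, mul_one] at h1
        have h2 := mem_nbrs.2 hadj
        simp only [nbrs, mem_insert, mem_singleton] at h2
        have h3 := sg_sq w0.2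
        rcases h2 with rfl | rfl | rfl | rfl
        · rw [K_right] at h1; norm_num at h1
        · rw [K_left] at h1; norm_num at h1
        · rw [K_up] at h1; rw [h1] at h3; norm_num at h3
        · rw [K_down] at h1
          have : sg w0.2 = 0 := by linarith
          rw [this] at h3; norm_num at h3
      · intro x _ hx
        have : r0 (fun x => if x = v then (1 : ℝ) else 0) x = 0 := by
          unfold r0; simp only [if_neg hx, ite_self]
        rw [this, mul_zero]
      · intro h; exact absurd (mem_nbrs.2 hadj) h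
    have up : ∀ v ∈ T.C, B0 v → f v ≤ max (f p) (f q) := by
      intro v hv hv0
      refine max0 hk0 hwh0 hw0C ∅ (fun _ _ _ _ _ _ _ _ _ h => absurd h (Set.notMem_empty _)) ?_ hv hv0
        (Set.notMem_empty _)
      intro x hx hx'
      rcases hadj x hx hx' with rfl | rfl
      · exact Or.inr (le_max_left _ _)
      · exact Or.inr (le_max_right _ _)
    have dn : ∀ v ∈ T.C, B0 v → min (f p) (f q) ≤ f v := by
      intro v hv hv0
      have := max0 (m := - min (f p) (f q)) hk0.neg hwh0 hw0C ∅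
        (fun _ _ _ _ _ _ _ _ _ h => absurd h (Set.notMem_empty _)) ?_ hv hv0
        (Set.notMem_empty _)
      · linarith
      intro x hx hx'
      rcases hadj x hx hx' with rfl | rfl
      · exact Or.inr (neg_le_neg (min_le_left _ _))
      · exact Or.inr (neg_le_neg (min_le_right _ _))
    have z : f T.v0 = 0 := Kinv_not_mem_left fun h => (mem_V'.1 h).2 rfl
    have u0 := up T.v0 (mem_C.2 (v0_mem T)) v0_B0
    have d0 := dn T.v0 (mem_C.2 (v0_mem T)) v0_B0
    rw [z] at u0 d0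
    have ub := up b hbC hb
    have db := dn b hbC hb
    have hmm : max (f p) (f q) - min (f p) (f q) = |f p - f q| := max_sub_min_eq_abs' _ _
    rw [abs_le]
    constructor <;> linarith
  · obtain ⟨p, q, s, hs, hp, hq, hwp, hwq, hF⟩ := pair1 hwh0
    rw [hF f, abs_sgn hs] at E1
    have hadj : ∀ v, B1 v → Adj w0 v → v = p ∨ v = q := by
      intro v hv hadj
      by_contra hcon
      push Not at hcon
      have h1 := hF (fun x => if x = v then 1 else 0)
      rw [if_neg hcon.1.symm, if_neg hcon.2.symm, sub_zero, mul_zero, ← sum_nbrs_K] at h1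
      rw [sum_eq_single v] at h1
      · rw [r1_of hv, if_pos rfl, mul_one] at h1
        have h2 := mem_nbrs.2 hadj
        simp only [nbrs, mem_insert, mem_singleton] at h2
        have h3 := sg_sq w0.2
        rcases h2 with rfl | rfl | rfl | rfl
        · rw [K_right] at h1; norm_num at h1
        · rw [K_left] at h1; norm_num at h1
        · rw [K_up] at h1; rw [h1] at h3; norm_num at h3
        · rw [K_down] at h1
          have : sg w0.2 = 0 := by linarith
          rw [this] at h3; norm_num at h3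
      · intro x _ hx
        have : r1 (fun x => if x = v then (1 : ℝ) else 0) x = 0 := by
          unfold r1; simp only [if_neg hx, ite_self]
        rw [this, mul_zero]
      · intro h; exact absurd (mem_nbrs.2 hadj) h
    have np := not_both_pos hk1 hoff hp hF
    have nn := not_both_pos (u := fun b => - f b) hk1.neg
      (fun b hb hbC => by simp [hoff b hb hbC]) hp hF
    simp only [Left.neg_pos_iff] at nn
    have hmin : min (f p) (f q) ≤ 0 := by
      by_contra h
      push Not at h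
      exact np (lt_min_iff.1 h)
    have hmax : 0 ≤ max (f p) (f q) := by
      by_contra h
      push Not at h
      exact nn (max_lt_iff.1 h)
    have ub : f b ≤ max (f p) (f q) := by
      refine max1 hk1 hwh0 hoff hmax ∅ (fun _ _ _ _ _ _ _ _ _ h => absurd h (Set.notMem_empty _)) ?_
        hb (Set.notMem_empty _)
      intro x hx hx'
      rcases hadj x hx hx' with rfl | rfl
      · exact Or.inr (le_max_left _ _)
      · exact Or.inr (le_max_right _ _)
    have db : min (f p) (f q) ≤ f b := by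
      have := max1 (m := - min (f p) (f q)) hk1.neg hwh0
        (fun b hb hbC => by simp [hoff b hb hbC]) (by linarith) ∅
        (fun _ _ _ _ _ _ _ _ _ h => absurd h (Set.notMem_empty _)) ?_ hb
        (Set.notMem_empty _)
      · linarith
      intro x hx hx'
      rcases hadj x hx hx' with rfl | rfl
      · exact Or.inr (neg_le_neg (min_le_left _ _))
      · exact Or.inr (neg_le_neg (min_le_right _ _))
    have hmm : max (f p) (f q) - min (f p) (f q) = |f p - f q| := max_sub_min_eq_abs' _ _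
    rw [abs_le]
    constructor <;> linarith

end Vale.Agent.P155.Dom
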