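import Vale.Agent.P155.B.DomA
import Vale.Agent.P155.G.Poincare
import Vale.Agent.P155.L.Face0
import Vale.Agent.P155.A.JCT2

/-!
# P155, block B2: distances, the plane profile, the cutoff and the energy estimate
-/

namespace Vale.Agent.P155.Dom

open Finset LatCycle Temp G

variable {T : Temp} {w0 : Pt}

/-! ### distances -/

theorem dn_cast (u v : Pt) : ((dn u v : ℕ) : ℤ) = dinf u v := by
  unfold dn
  exact Int.toNat_of_nonneg (dinf_nonneg u v)

theorem dF_le {O : Set Pt} {x y : Pt} (hy : y ∉ O) : dF O x ≤ dn x y :=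
  Nat.sInf_le ⟨y, hy, le_rfl⟩

theorem mem_of_lt {O : Set Pt} {x y : Pt} (h : dinf x y < dF O x) : y ∈ O := by
  by_contra hy
  have := dF_le (x := x) hy
  have h2 := dn_cast x y
  omega

theorem exists_near (T : Temp) (x : Pt) : ∃ y, y ∉ T.faceSet ∧ dn x y ≤ dF T.faceSet x := by
  have hne : {r | ∃ y, y ∉ T.faceSet ∧ dn x y ≤ r}.Nonempty := by
    obtain ⟨y, hy⟩ := (faceSet_finite T).exists_notMem
    exact ⟨dn x y, y, hy, le_rfl⟩
  exact Nat.sInf_mem hne

theorem faceSet_sub {v : Pt} (h : v ∈ T.faceSet) : v ∈ T.C := by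
  rw [mem_C]
  obtain ⟨f, hf, h1, h2, h3, h4⟩ := h
  exact ⟨f, hf, h1, by omega, h3, by omega⟩

theorem ball_C {v : Pt} (h : dinf w0 v < dF T.faceSet w0) : v ∈ T.C := faceSet_sub (mem_of_lt h)

/-- there is a face off the polygon touching `v0` -/
theorem v0_near (T : Temp) : ∃ y, y ∉ T.faceSet ∧ dinf T.v0 y ≤ 1 := by
  obtain ⟨F, ⟨⟨h1, h2⟩, _⟩, hF⟩ := edge_outside (γ := T.γ) T.i0
  refine ⟨(if (T.γ.c T.i0).1 = F.1 then 2 * F.1 else 2 * F.1 + 1,
        if (T.γ.c T.i0).2 = F.2 then 2 * F.2 else 2 * F.2 + 1), ?_, ?_⟩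
  · rw [L.mem_faceSet_iff]
    intro h
    apply hF
    have e1 : (if (T.γ.c T.i0).1 = F.1 then 2 * F.1 else 2 * F.1 + 1) / 2 = F.1 := by
      split_ifs <;> omega
    have e2 : (if (T.γ.c T.i0).2 = F.2 then 2 * F.2 else 2 * F.2 + 1) / 2 = F.2 := by
      split_ifs <;> omega
    simp only at h
    rw [e1, e2] at h
    exact h
  · rw [v0_eq]
    simp only [dbl, dinf_def]
    apply max_le
    · rw [abs_le]; split_ifs <;> omega
    · rw [abs_le]; split_ifs <;> omega

theorem v0_far : (dF T.faceSet w0 : ℤ) ≤ dinf w0 T.v0 + 1 := by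
  obtain ⟨y, hy, h⟩ := v0_near T
  have h1 := dF_le (x := w0) hy
  have h2 := dn_cast w0 y
  have h3 := dinf_triangle w0 T.v0 y
  omega

/-- an (odd,odd) point off the polygon near `w0` -/
theorem near_cell (T : Temp) (w0 : Pt) : ∃ p : Pt, ¬ T.γ.inside p ∧
    dinf w0 (2 * p.1 + 1, 2 * p.2 + 1) ≤ dF T.faceSet w0 + 1 := by
  obtain ⟨y, hy, h⟩ := exists_near T w0
  refine ⟨(y.1 / 2, y.2 / 2), fun h' => hy (L.mem_faceSet_iff.2 h'), ?_⟩
  have h2 := dn_cast w0 y
  have h3 := dinf_triangle w0 y (2 * (y.1 / 2) + 1, 2 * (y.2 / 2) + 1)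
  have h4 : dinf y (2 * (y.1 / 2) + 1, 2 * (y.2 / 2) + 1) ≤ 1 := by
    rw [dinf_def]
    apply max_le <;> · rw [abs_le]; simp only; omega
  simp only
  omega

/-! ### the plane profile -/

theorem nsq_ge (z : Pt) : (max |z.1| |z.2| : ℤ) ^ 2 ≤ nsq z := by
  unfold nsq
  rcases le_total |z.1| |z.2| with h | h
  · rw [max_eq_right h]
    push_cast
    rw [sq_abs]
    nlinarith [sq_nonneg (z.1 : ℝ)]
  · rw [max_eq_left h]
    push_cast
    rw [sq_abs]
    nlinarith [sq_nonneg (z.2 : ℝ)]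

theorem dinf_pos_of {b w : Pt} (hb : Black b) (hw : White w) : 1 ≤ dinf w b := by
  have h0 := dinf_nonneg w b
  by_contra h
  have h1 : dinf w b ≤ 0 := by omega
  rw [dinf_le_iff] at h1
  have e1 : b.1 = w.1 := by have := abs_nonneg (b.1 - w.1); have := abs_eq_zero.1 (le_antisymm h1.1 this); omega
  have e2 : b.2 = w.2 := by have := abs_nonneg (b.2 - w.2); have := abs_eq_zero.1 (le_antisymm h1.2 this); omega
  have : b = w := Prod.ext e1 e2
  rw [this] at hb
  exact white_iff_not_black.1 hw hb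

theorem sg_abs (y : ℤ) : |sg y| = 1 := by
  unfold sg; split_ifs <;> simp

theorem Kp_bound {A : Pt → ℝ} (hA : IsPlane A) : ∃ CA : ℝ, 1 ≤ CA ∧ ∀ b w, Black b → White w →
    |Kp A b w| ≤ CA / (dinf w b : ℤ) := by
  obtain ⟨C, hC⟩ := hA.asymp
  refine ⟨1 + max C 0, by linarith [le_max_right C 0], ?_⟩
  intro b w hb hw
  have hD := dinf_pos_of hb hw
  set D : ℤ := dinf w b with hDdef
  have hDr : (1 : ℝ) ≤ (D : ℝ) := by exact_mod_cast hD
  have hodd : Odd ((b - w).1 + (b - w).2) := by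
    unfold Black at hb
    unfold White at hw
    obtain ⟨k, hk⟩ := hb
    obtain ⟨l, hl⟩ := hw
    refine ⟨k - l - 1, ?_⟩
    simp only [Prod.fst_sub, Prod.snd_sub]
    omega
  have e : |Kp A b w| = |A (b - w)| := by
    unfold Kp
    rw [abs_mul]
    split_ifs
    · simp
    · rw [sg_abs, one_mul]
  rw [e]
  have hmax : (max |(b - w).1| |(b - w).2| : ℤ) = D := by
    rw [hDdef, dinf_def]
    simp only [Prod.fst_sub, Prod.snd_sub]
    rw [abs_sub_comm w.1, abs_sub_comm w.2]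
  have hn : (D : ℝ) ^ 2 ≤ nsq (b - w) := by
    have := nsq_ge (b - w)
    rw [hmax] at this
    exact this
  have hn0 : 0 < nsq (b - w) := by nlinarith
  have h1 : |A (b - w) - Alead (b - w)| ≤ max C 0 / D := by
    refine (hC _ hodd).trans ?_
    calc C / nsq (b - w) ≤ max C 0 / nsq (b - w) := by gcongr; exact le_max_left _ _
      _ ≤ max C 0 / D := by
        apply div_le_div_of_nonneg_left (le_max_right _ _) (by linarith)
        nlinarith
  have h2 : |Alead (b - w)| ≤ 1 / D := by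
    unfold Alead
    rw [abs_div, abs_of_pos (mul_pos Real.pi_pos hn0)]
    have hnum : |(if Odd (b - w).1 then (((b - w).1 : ℤ) : ℝ) else (((b - w).2 : ℤ) : ℝ))| ≤ D := by
      split_ifs
      · have : |(b - w).1| ≤ D := by rw [← hmax]; exact le_max_left _ _
        exact_mod_cast this
      · have : |(b - w).2| ≤ D := by rw [← hmax]; exact le_max_right _ _
        exact_mod_cast this
    rw [div_le_div_iff₀ (mul_pos Real.pi_pos hn0) (by linarith)]
    have hpi := Real.pi_gt_three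
    have : (1 : ℝ) * (Real.pi * nsq (b - w)) ≥ D ^ 2 := by nlinarith
    nlinarith
  have h3 : |A (b - w)| ≤ |A (b - w) - Alead (b - w)| + |Alead (b - w)| := by
    have := abs_add_le (A (b - w) - Alead (b - w)) (Alead (b - w))
    rwa [sub_add_cancel] at this
  calc |A (b - w)| ≤ max C 0 / D + 1 / D := by linarith
    _ = (1 + max C 0) / D := by ring

/-! ### the cutoff -/

/-- the cutoff: `1` for distance `≤ 14 n`, `0` for distance `≥ 15 n` -/
noncomputable def chi (w0 : Pt) (n : ℕ) (b : Pt) : ℝ := max 0 (min 1 ((15 * n - (dinf w0 b : ℤ)) / n))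

theorem chi_one {n : ℕ} (hn : 1 ≤ n) {b : Pt} (h : dinf w0 b ≤ 14 * n) : chi w0 n b = 1 := by
  unfold chi
  have hn' : (1 : ℝ) ≤ n := by exact_mod_cast hn
  have h' : ((dinf w0 b : ℤ) : ℝ) ≤ 14 * n := by exact_mod_cast h
  have : (1 : ℝ) ≤ (15 * n - (dinf w0 b : ℤ)) / n := by
    rw [le_div_iff₀ (by linarith)]; linarith
  rw [min_eq_left this]
  exact max_eq_right zero_le_one

theorem chi_zero {n : ℕ} {b : Pt} (h : 15 * n ≤ dinf w0 b) : chi w0 n b = 0 := by
  unfold chi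
  have h' : (15 * n : ℝ) ≤ ((dinf w0 b : ℤ) : ℝ) := by exact_mod_cast h
  have : (15 * n - (dinf w0 b : ℤ)) / (n : ℝ) ≤ 0 := by
    apply div_nonpos_of_nonpos_of_nonneg (by linarith) (by positivity)
  exact max_eq_left ((min_le_right _ _).trans this)

theorem chi_nonneg {n : ℕ} {b : Pt} : 0 ≤ chi w0 n b := le_max_left _ _

theorem chi_le_one {n : ℕ} {b : Pt} : chi w0 n b ≤ 1 := max_le zero_le_one (min_le_left _ _)

theorem abs_dinf_sub {b b' : Pt} (h : Adj b b') : |dinf w0 b - dinf w0 b'| ≤ 1 := by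
  have h1 := dinf_triangle w0 b b'
  have h2 := dinf_triangle w0 b' b
  have h3 : dinf b b' ≤ 1 := by
    rw [dinf_le_iff]
    exact adj_abs h
  have h4 := dinf_comm b b'
  rw [abs_le]
  omega

theorem chi_lip {n : ℕ} (hn : 1 ≤ n) {b b' : Pt} (h : Adj b b') :
    |chi w0 n b - chi w0 n b'| ≤ 1 / n := by
  unfold chi
  have hn' : (1 : ℝ) ≤ n := by exact_mod_cast hn
  have h1 : |((dinf w0 b : ℤ) : ℝ) - ((dinf w0 b' : ℤ) : ℝ)| ≤ 1 := by
    exact_mod_cast abs_dinf_sub (w0 := w0) h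
  refine (abs_max_sub_max_le_max _ _ _ _).trans ?_
  rw [sub_self, abs_zero]
  apply max_le (by positivity)
  refine (abs_min_sub_min_le_max _ _ _ _).trans ?_
  rw [sub_self, abs_zero]
  apply max_le (by positivity)
  rw [← sub_div, abs_div, abs_of_pos (by linarith : (0 : ℝ) < n)]
  have e : (15 * (n : ℝ) - ((dinf w0 b : ℤ) : ℝ)) - (15 * n - ((dinf w0 b' : ℤ) : ℝ))
      = -(((dinf w0 b : ℤ) : ℝ) - ((dinf w0 b' : ℤ) : ℝ)) := by ring
  rw [e, abs_neg]
  exact div_le_div_of_nonneg_right h1 (by linarith)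

end Vale.Agent.P155.Dom
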