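import Vale.Agent.P155.B.DomB

/-!
# P155, block B2: the energy estimate for the regular part of `K_D⁻¹(·, w0)`
-/

namespace Vale.Agent.P155.Dom

open Finset LatCycle Temp G

variable {T : Temp} {w0 : Pt} {A : Pt → ℝ} {n : ℕ} {CA : ℝ}

theorem abs_K_le (w b : Pt) : |K w b| ≤ 1 := by
  unfold K
  split_ifs
  · simp
  · simp
  · rw [sg_abs]
  · rw [abs_neg, sg_abs]
  · simp

/-- the regular part of `K_D⁻¹(·, w0)` -/
noncomputable def Rg (T : Temp) (A : Pt → ℝ) (w0 : Pt) (n : ℕ) (b : Pt) : ℝ :=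
  Kinv T.V b w0 - chi w0 n b * Kp A b w0

theorem Kop_Rg (hA : IsPlane A) (hdet : (KM T.V).det ≠ 0) (hw0 : w0 ∈ T.V) (hwh0 : White w0)
    (hn : 1 ≤ n) {w : Pt} (hw : w ∈ T.C) (hwh : White w) :
    Kop (Rg T A w0 n) w
      = - ∑ b ∈ nbrs w, K w b * ((chi w0 n b - chi w0 n w) * Kp A b w0) := by
  have h1 : Kop (fun b => Kinv T.V b w0) w = if w = w0 then 1 else 0 :=
    Kop_Kinv hdet hw0 ((white_mem_V hwh).2 hw) hwh
  have h2 := hA.left w0 w hwh0 hwh
  have e1 : Kop (Rg T A w0 n) w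
      = Kop (fun b => Kinv T.V b w0) w - ∑ b ∈ nbrs w, K w b * (chi w0 n b * Kp A b w0) := by
    rw [← sum_nbrs_K, ← sum_nbrs_K, ← sum_sub_distrib]
    refine sum_congr rfl fun b _ => ?_
    unfold Rg; ring
  have e2 : ∑ b ∈ nbrs w, K w b * (chi w0 n b * Kp A b w0)
      = ∑ b ∈ nbrs w, K w b * ((chi w0 n b - chi w0 n w) * Kp A b w0)
        + chi w0 n w * ∑ b ∈ nbrs w, K w b * Kp A b w0 := by
    rw [mul_sum, ← sum_add_distrib]
    refine sum_congr rfl fun b _ => ?_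
    ring
  rw [e1, e2, h1, h2]
  by_cases hww : w = w0
  · rw [if_pos hww, hww, chi_one (w0 := w0) hn (b := w0) (by rw [dinf_self]; positivity)]
    ring
  · rw [if_neg hww]; ring

theorem Kop_Rg_zero (hA : IsPlane A) (hdet : (KM T.V).det ≠ 0) (hw0 : w0 ∈ T.V) (hwh0 : White w0)
    (hn : 1 ≤ n) {w : Pt} (hw : w ∈ T.C) (hwh : White w)
    (hd : dinf w0 w + 1 ≤ 14 * n ∨ 15 * n + 1 ≤ dinf w0 w) : Kop (Rg T A w0 n) w = 0 := by
  rw [Kop_Rg hA hdet hw0 hwh0 hn hw hwh, sum_eq_zero, neg_zero]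
  intro b hb
  have h1 := abs_dinf_sub (w0 := w0) (mem_nbrs.1 hb)
  rw [abs_le] at h1
  rcases hd with hd | hd
  · rw [chi_one hn (by omega : dinf w0 b ≤ 14 * n), chi_one hn (by omega : dinf w0 w ≤ 14 * n)]
    ring
  · rw [chi_zero (by omega : 15 * (n : ℤ) ≤ dinf w0 b),
      chi_zero (by omega : 15 * (n : ℤ) ≤ dinf w0 w)]
    ring

theorem Kop_Rg_le (hA : IsPlane A) (hCA1 : 1 ≤ CA)
    (hCA : ∀ b w, Black b → White w → |Kp A b w| ≤ CA / (dinf w b : ℤ))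
    (hdet : (KM T.V).det ≠ 0) (hw0 : w0 ∈ T.V) (hwh0 : White w0)
    (hn : 2 ≤ n) {w : Pt} (hw : w ∈ T.C) (hwh : White w) :
    |Kop (Rg T A w0 n) w| ≤ CA / n ^ 2 := by
  have hn' : (2 : ℝ) ≤ n := by exact_mod_cast hn
  have hpos : 0 ≤ CA / (n : ℝ) ^ 2 := by positivity
  by_cases hd : dinf w0 w + 1 ≤ 14 * n ∨ 15 * n + 1 ≤ dinf w0 w
  · rw [Kop_Rg_zero hA hdet hw0 hwh0 (by omega) hw hwh hd, abs_zero]
    exact hpos
  push Not at hd
  rw [Kop_Rg hA hdet hw0 hwh0 (by omega) hw hwh, abs_neg]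
  have hterm : ∀ b ∈ nbrs w, |K w b * ((chi w0 n b - chi w0 n w) * Kp A b w0)|
      ≤ CA / n ^ 2 / 13 := by
    intro b hb
    have hadj := mem_nbrs.1 hb
    have h1 := abs_dinf_sub (w0 := w0) hadj
    rw [abs_le] at h1
    have hbl : Black b := hadj.black hwh
    have h2 := hCA b w0 hbl hwh0
    have h3 : (13 * n : ℤ) ≤ dinf w0 b := by omega
    have h3' : (13 * n : ℝ) ≤ ((dinf w0 b : ℤ) : ℝ) := by exact_mod_cast h3
    have h4 := chi_lip (w0 := w0) (by omega : 1 ≤ n) (adj_comm.1 hadj)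
    rw [abs_mul, abs_mul]
    calc |K w b| * (|chi w0 n b - chi w0 n w| * |Kp A b w0|)
        ≤ 1 * ((1 / n) * (CA / (13 * n))) := by
          refine mul_le_mul (abs_K_le w b) ?_ (by positivity) (by norm_num)
          refine mul_le_mul h4 (h2.trans ?_) (abs_nonneg _) (by positivity)
          exact div_le_div_of_nonneg_left (by linarith) (by linarith) h3'
      _ = CA / n ^ 2 / 13 := by
          have : (n : ℝ) ≠ 0 := by linarith
          field_simp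
  calc |∑ b ∈ nbrs w, K w b * ((chi w0 n b - chi w0 n w) * Kp A b w0)|
      ≤ ∑ b ∈ nbrs w, |K w b * ((chi w0 n b - chi w0 n w) * Kp A b w0)| :=
        abs_sum_le_sum_abs _ _
    _ ≤ ∑ b ∈ nbrs w, CA / n ^ 2 / 13 := sum_le_sum hterm
    _ = 4 * (CA / n ^ 2 / 13) := by rw [sum_nbrs]; ring
    _ ≤ CA / n ^ 2 := by linarith

theorem card_box (x : Pt) (r : ℕ) : ((box x r).card : ℝ) = (2 * r + 1) ^ 2 := by
  unfold box
  rw [card_product, Int.card_Icc, Int.card_Icc]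
  have h1 : (x.1 + r + 1 - (x.1 - r)).toNat = 2 * r + 1 := by omega
  have h2 : (x.2 + r + 1 - (x.2 - r)).toNat = 2 * r + 1 := by omega
  rw [h1, h2]
  push_cast
  ring

/-- the (odd,odd) part of the regular part vanishes off the graph -/
theorem Rg_off (hn : 15 * n ≤ dF T.faceSet w0) {b : Pt} (hbC : b ∉ T.C) : Rg T A w0 n b = 0 := by
  unfold Rg
  have h1 : Kinv T.V b w0 = 0 := Kinv_not_mem_left fun h => hbC (V_subset h)
  have h2 : chi w0 n b = 0 := by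
    apply chi_zero
    by_contra h
    push Not at h
    exact hbC (ball_C (w0 := w0) (by omega))
  rw [h1, h2]; ring

/-- **the energy estimate** -/
theorem energy_Rg (hA : IsPlane A) (hCA1 : 1 ≤ CA)
    (hCA : ∀ b w, Black b → White w → |Kp A b w| ≤ CA / (dinf w b : ℤ))
    (hdet : (KM T.V).det ≠ 0) (hw0 : w0 ∈ T.V) (hwh0 : White w0)
    (hn : 2 ≤ n) (hnd : 15 * n ≤ dF T.faceSet w0) :
    ∑ w ∈ T.C.filter White, Kop (r0 (Rg T A w0 n)) w ^ 2
      + ∑ w ∈ T.C.filter White, Kop (r1 (Rg T A w0 n)) w ^ 2 ≤ 1089 * CA ^ 2 / n ^ 2 := by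
  classical
  have hn' : (2 : ℝ) ≤ n := by exact_mod_cast hn
  rw [← (isCl T).energy_split fun b _ hbC => Rg_off hnd hbC]
  have h1 : ∑ w ∈ T.C.filter White, Kop (Rg T A w0 n) w ^ 2
      = ∑ w ∈ (T.C.filter White).filter (· ∈ box w0 (15 * n)), Kop (Rg T A w0 n) w ^ 2 := by
    rw [sum_filter (s := T.C.filter White)]
    refine sum_congr rfl fun w hw => ?_
    split_ifs with h
    · rfl
    · obtain ⟨hwC, hwh⟩ := mem_filter.1 hw
      rw [mem_box] at h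
      push Not at h
      rw [Kop_Rg_zero hA hdet hw0 hwh0 (by omega) hwC hwh (Or.inr (by push_cast at h; omega))]
      norm_num
  rw [h1]
  have h2 : ∀ w ∈ (T.C.filter White).filter (· ∈ box w0 (15 * n)),
      Kop (Rg T A w0 n) w ^ 2 ≤ (CA / n ^ 2) ^ 2 := by
    intro w hw
    obtain ⟨hw1, _⟩ := mem_filter.1 hw
    obtain ⟨hwC, hwh⟩ := mem_filter.1 hw1
    have := Kop_Rg_le hA hCA1 hCA hdet hw0 hwh0 hn hwC hwh
    rw [← sq_abs]
    gcongr
  refine (sum_le_card_nsmul _ _ _ h2).trans ?_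
  rw [nsmul_eq_mul]
  have h3 : (((T.C.filter White).filter (· ∈ box w0 (15 * n))).card : ℝ) ≤ (2 * (15 * n) + 1) ^ 2 := by
    have := card_box w0 (15 * n)
    push_cast at this
    rw [← this]
    exact_mod_cast card_le_card fun x hx => (mem_filter.1 hx).2
  calc _ ≤ (2 * (15 * (n : ℝ)) + 1) ^ 2 * (CA / n ^ 2) ^ 2 := by gcongr
    _ ≤ (33 * n) ^ 2 * (CA / n ^ 2) ^ 2 := by gcongr; linarith
    _ = 1089 * CA ^ 2 / n ^ 2 := by
      have : (n : ℝ) ≠ 0 := by linarith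
      field_simp
      ring

end Vale.Agent.P155.Dom
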