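import Vale.Agent.P155.B.DomC

/-!
# P155, block B2: interior gradient of the regular part, oscillation
-/

namespace Vale.Agent.P155.Dom

open Finset LatCycle Temp G

variable {T : Temp} {w0 : Pt} {A : Pt → ℝ} {n : ℕ} {CA : ℝ}

theorem KTop_neg (g : Pt → ℝ) (b : Pt) : KTop (fun w => - g w) b = - KTop g b := by
  unfold KTop; ring

theorem KTop_Rg (hA : IsPlane A) (hdet : (KM T.V).det ≠ 0) (hw0 : w0 ∈ T.V) (hwh0 : White w0)
    (hn : 1 ≤ n) (hnd : 15 * n ≤ dF T.faceSet w0) {b : Pt} (hbl : Black b)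
    (hd : dinf w0 b + 2 ≤ 14 * n) :
    KTop (Kop (r0 (Rg T A w0 n))) b = 0 ∧ KTop (Kop (r1 (Rg T A w0 n))) b = 0 := by
  have hz : ∀ w ∈ nbrs b, Kop (r0 (Rg T A w0 n)) w = - Kop (r1 (Rg T A w0 n)) w := by
    intro w hw
    have hadj := mem_nbrs.1 hw
    have hwh : White w := hadj.white hbl
    have h1 := abs_dinf_sub (w0 := w0) hadj
    rw [abs_le] at h1
    have hwC : w ∈ T.C := ball_C (w0 := w0) (by omega)
    have h2 := Kop_Rg_zero hA hdet hw0 hwh0 hn hwC hwh (Or.inl (by omega))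
    rw [Kop_split hwh] at h2
    linarith
  have e1 : KTop (Kop (r0 (Rg T A w0 n))) b = - KTop (Kop (r1 (Rg T A w0 n))) b := by
    rw [← KTop_neg]
    exact KTop_congr hz
  rcases black_iff.1 hbl with h | h
  · have h1 : KTop (Kop (r1 (Rg T A w0 n))) b = 0 := KTop_Kop_r1 h
    rw [e1, h1]; simp
  · have h1 : KTop (Kop (r0 (Rg T A w0 n))) b = 0 := KTop_Kop_r0 h
    rw [h1] at e1
    exact ⟨h1, by linarith⟩

theorem dinf_double (w z : Pt) : dinf w (w.1 + 2 * z.1, w.2 + 2 * z.2) = 2 * dinf (0, 0) z := by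
  simp only [dinf_def]
  have e1 : w.1 - (w.1 + 2 * z.1) = 2 * (0 - z.1) := by ring
  have e2 : w.2 - (w.2 + 2 * z.2) = 2 * (0 - z.2) := by ring
  rw [e1, e2, abs_mul, abs_mul]
  norm_num
  exact (mul_max_of_nonneg _ _ (by norm_num)).symm

/-- mean value inequality for gradients -/
theorem mean_white (hn : 1 ≤ n) (hnd : 15 * n ≤ dF T.faceSet w0) {γ : Pt → ℝ}
    (hγ : ∀ b, Black b → dinf w0 b + 2 ≤ 14 * n → KTop γ b = 0) {w : Pt} (hw : White w)
    (hd : dinf w0 w ≤ 11 * n) :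
    (n : ℝ) ^ 2 * γ w ^ 2 ≤ 72 * ∑ v ∈ T.C.filter White, γ v ^ 2 := by
  classical
  set F : Pt → ℝ := fun z => γ (w.1 + 2 * z.1, w.2 + 2 * z.2) with hF
  have hwhite : ∀ z : Pt, White (w.1 + 2 * z.1, w.2 + 2 * z.2) := by
    intro z
    unfold White at hw ⊢
    obtain ⟨k, hk⟩ := hw
    exact ⟨k + z.1 + z.2, by simp only; omega⟩
  have hlap : ∀ z, dinf (0, 0) z < n → lap F z = 0 := by
    intro z hz
    set v : Pt := (w.1 + 2 * z.1, w.2 + 2 * z.2) with hv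
    have h1 : lap F z = - Kop (KTop γ) v := by
      rw [Kop_KTop]
      simp only [lap, hF, hv]
      have a1 : w.1 + 2 * (z.1 + 1) = w.1 + 2 * z.1 + 2 := by ring
      have a2 : w.1 + 2 * (z.1 - 1) = w.1 + 2 * z.1 - 2 := by ring
      have a3 : w.2 + 2 * (z.2 + 1) = w.2 + 2 * z.2 + 2 := by ring
      have a4 : w.2 + 2 * (z.2 - 1) = w.2 + 2 * z.2 - 2 := by ring
      rw [a1, a2, a3, a4]
      ring
    have h2 : Kop (KTop γ) v = 0 := by
      rw [← sum_nbrs_K]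
      refine sum_eq_zero fun b hb => ?_
      have hadj := mem_nbrs.1 hb
      have h3 := abs_dinf_sub (w0 := w0) hadj
      rw [abs_le] at h3
      have h4 := dinf_triangle w0 w v
      have h5 : dinf w v = 2 * dinf (0, 0) z := dinf_double w z
      rw [hγ b (hadj.black (hwhite z)) (by omega), mul_zero]
    rw [h1, h2, neg_zero]
  have hm := mean_value_sq F (0, 0) n hlap
  have hF0 : F (0, 0) = γ w := by simp [hF]
  rw [hF0] at hm
  refine hm.trans ?_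
  apply mul_le_mul_of_nonneg_left _ (by norm_num)
  have hinj : Set.InjOn (fun z : Pt => ((w.1 + 2 * z.1, w.2 + 2 * z.2) : Pt)) (box (0, 0) n : Set Pt) := by
    intro z _ z' _ h
    simp only [Prod.mk.injEq] at h
    ext <;> omega
  have e : ∑ z ∈ box (0, 0) n, F z ^ 2
      = ∑ v ∈ (box (0, 0) n).image (fun z : Pt => ((w.1 + 2 * z.1, w.2 + 2 * z.2) : Pt)), γ v ^ 2 := by
    rw [sum_image hinj]
  rw [e]
  apply sum_le_sum_of_subset_of_nonneg
  · intro v hv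
    obtain ⟨z, hz, rfl⟩ := mem_image.1 hv
    rw [mem_filter]
    refine ⟨ball_C (w0 := w0) ?_, hwhite z⟩
    rw [mem_box] at hz
    have h4 := dinf_triangle w0 w (w.1 + 2 * z.1, w.2 + 2 * z.2)
    have h5 := dinf_double w z
    omega
  · intro v _ _; positivity

/-- pointwise bound for the gradient of the regular part -/
theorem grad_Rg (hA : IsPlane A) (hCA1 : 1 ≤ CA)
    (hCA : ∀ b w, Black b → White w → |Kp A b w| ≤ CA / (dinf w b : ℤ))
    (hdet : (KM T.V).det ≠ 0) (hw0 : w0 ∈ T.V) (hwh0 : White w0)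
    (hn : 2 ≤ n) (hnd : 15 * n ≤ dF T.faceSet w0) {w : Pt} (hw : White w)
    (hd : dinf w0 w ≤ 11 * n) :
    |Kop (r0 (Rg T A w0 n)) w| ≤ 281 * CA / n ^ 2 ∧ |Kop (r1 (Rg T A w0 n)) w| ≤ 281 * CA / n ^ 2 := by
  have hn' : (2 : ℝ) ≤ n := by exact_mod_cast hn
  have hE := energy_Rg hA hCA1 hCA hdet hw0 hwh0 hn hnd
  have n0 : 0 ≤ ∑ w ∈ T.C.filter White, Kop (r0 (Rg T A w0 n)) w ^ 2 :=
    sum_nonneg fun _ _ => sq_nonneg _
  have n1 : 0 ≤ ∑ w ∈ T.C.filter White, Kop (r1 (Rg T A w0 n)) w ^ 2 :=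
    sum_nonneg fun _ _ => sq_nonneg _
  have hfin : ∀ x S : ℝ, (n : ℝ) ^ 2 * x ^ 2 ≤ 72 * S → S ≤ 1089 * CA ^ 2 / n ^ 2 →
      |x| ≤ 281 * CA / n ^ 2 := by
    intro x S h1 h2
    apply abs_le_of_sq_le_sq _ (by positivity)
    have h3 : (n : ℝ) ^ 2 * x ^ 2 ≤ 72 * (1089 * CA ^ 2 / n ^ 2) := by linarith
    have hnn : (0 : ℝ) < (n : ℝ) ^ 2 := by positivity
    have h4 : x ^ 2 ≤ 72 * (1089 * CA ^ 2 / n ^ 2) / n ^ 2 := by
      rw [le_div_iff₀ hnn]; linarith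
    refine h4.trans ?_
    have e1 : 72 * (1089 * CA ^ 2 / (n : ℝ) ^ 2) / n ^ 2 = 78408 * (CA ^ 2 / n ^ 4) := by
      field_simp
      ring
    have e2 : (281 * CA / (n : ℝ) ^ 2) ^ 2 = 78961 * (CA ^ 2 / n ^ 4) := by
      field_simp
      ring
    rw [e1, e2]
    have : 0 ≤ CA ^ 2 / (n : ℝ) ^ 4 := by positivity
    linarith
  constructor
  · refine hfin _ _ (mean_white (by omega) hnd (fun b hb hbd => ?_) hw hd) (by linarith)
    exact (KTop_Rg hA hdet hw0 hwh0 (by omega) hnd hb hbd).1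
  · refine hfin _ _ (mean_white (by omega) hnd (fun b hb hbd => ?_) hw hd) (by linarith)
    exact (KTop_Rg hA hdet hw0 hwh0 (by omega) hnd hb hbd).2

/-! ### oscillation -/

theorem line_nat (f : ℤ → ℝ) (M : ℝ) (m : ℕ) (h : ∀ k : ℕ, k < m → |f ((k : ℤ) + 1) - f k| ≤ M) :
    |f m - f 0| ≤ m * M := by
  induction m with
  | zero => simp
  | succ m ih =>
    have h1 := ih fun k hk => h k (by omega)
    have h2 := h m (by omega)
    have h3 : |f ((m : ℤ) + 1) - f 0| ≤ |f ((m : ℤ) + 1) - f m| + |f m - f 0| := by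
      have := abs_add_le (f ((m : ℤ) + 1) - f m) (f m - f 0)
      rwa [sub_add_sub_cancel] at this
    push_cast
    linarith

theorem line_int (f : ℤ → ℝ) (M : ℝ) (i : ℤ)
    (h : ∀ k : ℤ, min 0 i ≤ k → k + 1 ≤ max 0 i → |f (k + 1) - f k| ≤ M) :
    |f i - f 0| ≤ |(i : ℝ)| * M := by
  rcases le_total 0 i with hi | hi
  · obtain ⟨m, rfl⟩ := Int.eq_ofNat_of_zero_le hi
    have := line_nat f M m fun k hk => h k (by omega) (by omega)
    rw [Int.cast_natCast, abs_of_nonneg (Nat.cast_nonneg m : (0 : ℝ) ≤ m)]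
    exact this
  · obtain ⟨m, hm⟩ := Int.eq_ofNat_of_zero_le (neg_nonneg.2 hi)
    have him : i = -(m : ℤ) := by omega
    subst him
    have := line_nat (fun k => f (-k)) M m fun k hk => by
      have := h (-(k : ℤ) - 1) (by omega) (by omega)
      rw [abs_sub_comm] at this
      have e1 : -((k : ℤ) + 1) = -(k : ℤ) - 1 := by ring
      have e2 : -(k : ℤ) - 1 + 1 = -(k : ℤ) := by ring
      rw [e2] at this
      simp only [e1]
      exact this
    simp only [neg_zero] at this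
    have e : |((-(m : ℤ) : ℤ) : ℝ)| = m := by
      push_cast
      rw [abs_neg, abs_of_nonneg (Nat.cast_nonneg m : (0 : ℝ) ≤ m)]
    rw [e]
    exact this

/-- oscillation over a box from step-two differences -/
theorem osc_box {P : Pt → Prop} (hP : ∀ a c i j : ℤ, P (a, c) → P (a + 2 * i, c + 2 * j))
    {F : Pt → ℝ} {M : ℝ} {ρ : ℕ} (hM : 0 ≤ M)
    (hx : ∀ a c : ℤ, P (a, c) → dinf w0 (a, c) ≤ ρ → dinf w0 (a + 2, c) ≤ ρ →
      |F (a + 2, c) - F (a, c)| ≤ M)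
    (hy : ∀ a c : ℤ, P (a, c) → dinf w0 (a, c) ≤ ρ → dinf w0 (a, c + 2) ≤ ρ →
      |F (a, c + 2) - F (a, c)| ≤ M)
    {a c i j : ℤ} (hP0 : P (a, c)) (h1 : dinf w0 (a, c) ≤ ρ)
    (h2 : dinf w0 (a + 2 * i, c + 2 * j) ≤ ρ) :
    |F (a + 2 * i, c + 2 * j) - F (a, c)| ≤ 2 * ρ * M := by
  rw [dinf_le_iff] at h1 h2
  simp only [abs_le] at h1 h2
  have s1 := line_int (fun k => F (a + 2 * k, c)) M i (by
    intro k hk1 hk2
    have := hx (a + 2 * k) c (by simpa using hP a c k 0 hP0)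
      (by rw [dinf_le_iff]; simp only [abs_le]; omega)
      (by rw [dinf_le_iff]; simp only [abs_le]; omega)
    rw [show a + 2 * (k + 1) = a + 2 * k + 2 by ring]
    exact this)
  have s2 := line_int (fun k => F (a + 2 * i, c + 2 * k)) M j (by
    intro k hk1 hk2
    have := hy (a + 2 * i) (c + 2 * k) (hP a c i k hP0)
      (by rw [dinf_le_iff]; simp only [abs_le]; omega)
      (by rw [dinf_le_iff]; simp only [abs_le]; omega)
    rw [show c + 2 * (k + 1) = c + 2 * k + 2 by ring]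
    exact this)
  simp only [mul_zero, add_zero] at s1 s2
  have hi : |(i : ℝ)| ≤ ρ := by
    have : |i| ≤ ρ := by rw [abs_le]; omega
    exact_mod_cast this
  have hj : |(j : ℝ)| ≤ ρ := by
    have : |j| ≤ ρ := by rw [abs_le]; omega
    exact_mod_cast this
  have h3 : |F (a + 2 * i, c + 2 * j) - F (a, c)|
      ≤ |F (a + 2 * i, c + 2 * j) - F (a + 2 * i, c)| + |F (a + 2 * i, c) - F (a, c)| := by
    have := abs_add_le (F (a + 2 * i, c + 2 * j) - F (a + 2 * i, c)) (F (a + 2 * i, c) - F (a, c))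
    rwa [sub_add_sub_cancel] at this
  have h4 : |(i : ℝ)| * M ≤ ρ * M := by gcongr
  have h5 : |(j : ℝ)| * M ≤ ρ * M := by gcongr
  linarith

theorem osc0 {F : Pt → ℝ} {M : ℝ} {ρ : ℕ} (hM : 0 ≤ M)
    (h : ∀ w, White w → dinf w0 w ≤ ρ → |Kop (r0 F) w| ≤ M) {b b' : Pt} (hb : B0 b) (hb' : B0 b')
    (h1 : dinf w0 b ≤ ρ) (h2 : dinf w0 b' ≤ ρ) : |F b' - F b| ≤ 2 * ρ * M := by
  obtain ⟨a, c⟩ := b
  obtain ⟨a', c'⟩ := b'
  obtain ⟨⟨k, hk⟩, ⟨l, hl⟩⟩ := hb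
  obtain ⟨⟨k', hk'⟩, ⟨l', hl'⟩⟩ := hb'
  simp only at hk hl hk' hl'
  have e1 : a' = a + 2 * (k' - k) := by omega
  have e2 : c' = c + 2 * (l' - l) := by omega
  rw [e1, e2] at h2 ⊢
  refine osc_box (P := B0) ?_ hM ?_ ?_ ⟨⟨k, hk⟩, ⟨l, hl⟩⟩ h1 h2
  · rintro a c i j ⟨⟨k, hk⟩, ⟨l, hl⟩⟩
    exact ⟨⟨k + i, by simp only at hk ⊢; omega⟩, ⟨l + j, by simp only at hl ⊢; omega⟩⟩
  · rintro a c ⟨⟨k, hk⟩, ⟨l, hl⟩⟩ d1 d2
    simp only at hk hl
    have hw : White (a + 1, c) := ⟨k + l, by simp only; omega⟩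
    have := h (a + 1, c) hw (by rw [dinf_le_iff] at *; simp only [abs_le] at *; omega)
    rw [Kop_r0_eq hw, if_pos ⟨k, by simp only; omega⟩] at this
    simp only [add_sub_cancel_right] at this
    rw [show a + 1 + 1 = a + 2 by ring] at this
    exact this
  · rintro a c ⟨⟨k, hk⟩, ⟨l, hl⟩⟩ d1 d2
    simp only at hk hl
    have hw : White (a, c + 1) := ⟨k + l, by simp only; omega⟩
    have := h (a, c + 1) hw (by rw [dinf_le_iff] at *; simp only [abs_le] at *; omega)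
    rw [Kop_r0_eq hw, if_neg (by rw [Int.not_odd_iff_even]; exact ⟨k, by simp only; omega⟩),
      abs_sgn (sg_sq _)] at this
    simp only [add_sub_cancel_right] at this
    rw [show c + 1 + 1 = c + 2 by ring] at this
    exact this

theorem osc1 {F : Pt → ℝ} {M : ℝ} {ρ : ℕ} (hM : 0 ≤ M)
    (h : ∀ w, White w → dinf w0 w ≤ ρ → |Kop (r1 F) w| ≤ M) {b b' : Pt} (hb : B1 b) (hb' : B1 b')
    (h1 : dinf w0 b ≤ ρ) (h2 : dinf w0 b' ≤ ρ) : |F b' - F b| ≤ 2 * ρ * M := by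
  obtain ⟨a, c⟩ := b
  obtain ⟨a', c'⟩ := b'
  obtain ⟨⟨k, hk⟩, ⟨l, hl⟩⟩ := hb
  obtain ⟨⟨k', hk'⟩, ⟨l', hl'⟩⟩ := hb'
  simp only at hk hl hk' hl'
  have e1 : a' = a + 2 * (k' - k) := by omega
  have e2 : c' = c + 2 * (l' - l) := by omega
  rw [e1, e2] at h2 ⊢
  refine osc_box (P := B1) ?_ hM ?_ ?_ ⟨⟨k, hk⟩, ⟨l, hl⟩⟩ h1 h2
  · rintro a c i j ⟨⟨k, hk⟩, ⟨l, hl⟩⟩
    exact ⟨⟨k + i, by simp only at hk ⊢; omega⟩, ⟨l + j, by simp only at hl ⊢; omega⟩⟩
  · rintro a c ⟨⟨k, hk⟩, ⟨l, hl⟩⟩ d1 d2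
    simp only at hk hl
    have hw : White (a + 1, c) := ⟨k + l + 1, by simp only; omega⟩
    have := h (a + 1, c) hw (by rw [dinf_le_iff] at *; simp only [abs_le] at *; omega)
    rw [Kop_r1_eq hw, if_neg (by rw [Int.not_odd_iff_even]; exact ⟨k + 1, by simp only; omega⟩)]
      at this
    simp only [add_sub_cancel_right] at this
    rw [show a + 1 + 1 = a + 2 by ring] at this
    exact this
  · rintro a c ⟨⟨k, hk⟩, ⟨l, hl⟩⟩ d1 d2
    simp only at hk hl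
    have hw : White (a, c + 1) := ⟨k + l + 1, by simp only; omega⟩
    have := h (a, c + 1) hw (by rw [dinf_le_iff] at *; simp only [abs_le] at *; omega)
    rw [Kop_r1_eq hw, if_pos ⟨k, by simp only; omega⟩] at this
    simp only [add_sub_cancel_right] at this
    rw [show c + 1 + 1 = c + 2 by ring] at this
    exact this

end Vale.Agent.P155.Dom
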