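import Vale.Agent.P155.B.DomD

/-!
# P155, block B2: contours around a boundary point, Dirichlet case
-/

namespace Vale.Agent.P155.Dom

open Finset LatCycle Temp G

variable {T : Temp} {w0 : Pt}

/-- the energy on the contour of radius `2 r` around `P` -/
noncomputable def ringE (T : Temp) (u : Pt → ℝ) (P : Pt) (r : ℕ) : ℝ :=
  ∑ w ∈ (T.C.filter White).filter (fun w => dinf P w = 2 * r), Kop (r1 u) w ^ 2

theorem ringE_nonneg (u : Pt → ℝ) (P : Pt) (r : ℕ) : 0 ≤ ringE T u P r :=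
  sum_nonneg fun _ _ => sq_nonneg _

theorem Kop_r1_off {u : Pt → ℝ} (hu : ∀ b, B1 b → b ∉ T.C → u b = 0) {w : Pt} (hw : w ∉ T.C) :
    Kop (r1 u) w = 0 := by
  rw [← sum_nbrs_K]
  refine sum_eq_zero fun b hb => ?_
  by_cases h1 : B1 b
  · have : b ∉ T.C := by
      intro hbC
      exact hw ((isCl T).nbr_mem hbC h1 (mem_nbrs_comm.1 hb))
    rw [r1_of h1, hu b h1 this, mul_zero]
  · unfold r1; rw [if_neg h1, mul_zero]

theorem side_sum {u : Pt → ℝ} (hu : ∀ b, B1 b → b ∉ T.C → u b = 0) (P : Pt) (r : ℕ)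
    (I : Finset ℤ) (ψ : ℤ → Pt) (hinj : Set.InjOn ψ I)
    (hψ : ∀ k ∈ I, White (ψ k) ∧ dinf P (ψ k) = 2 * r) :
    ∑ k ∈ I, Kop (r1 u) (ψ k) ^ 2 ≤ ringE T u P r := by
  classical
  have e : ∑ k ∈ I, Kop (r1 u) (ψ k) ^ 2 = ∑ w ∈ I.image ψ, Kop (r1 u) w ^ 2 := by
    rw [sum_image hinj]
  rw [e]
  have e2 : ∑ w ∈ I.image ψ, Kop (r1 u) w ^ 2 = ∑ w ∈ (I.image ψ).filter (· ∈ T.C), Kop (r1 u) w ^ 2 := by
    symm
    apply sum_filter_of_ne
    intro w _ h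
    by_contra hw
    apply h
    rw [Kop_r1_off hu hw]; norm_num
  rw [e2]
  apply sum_le_sum_of_subset_of_nonneg
  · intro w hw
    obtain ⟨h1, h2⟩ := mem_filter.1 hw
    obtain ⟨k, hk, rfl⟩ := mem_image.1 h1
    exact mem_filter.2 ⟨mem_filter.2 ⟨h2, (hψ k hk).1⟩, (hψ k hk).2⟩
  · intro _ _ _; positivity

/-- vertical sides -/
theorem vside {u : Pt → ℝ} (hu : ∀ b, B1 b → b ∉ T.C → u b = 0) {P : Pt} (hP : B1 P) (r : ℕ)
    {X : ℤ} (hX : X = P.1 + 2 * r ∨ X = P.1 - 2 * r) {i j : ℤ} (hi : -(r : ℤ) ≤ i) (hi' : i ≤ r)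
    (hj : -(r : ℤ) ≤ j) (hj' : j ≤ r) :
    (u (X, P.2 + 2 * i) - u (X, P.2 + 2 * j)) ^ 2 ≤ 2 * r * ringE T u P r := by
  obtain ⟨⟨a, ha⟩, ⟨c, hc⟩⟩ := hP
  have hXo : Odd X := by
    rcases hX with h | h
    · exact ⟨a + r, by omega⟩
    · exact ⟨a - r, by omega⟩
  have h1 := sq_diff_le (fun k => u (X, P.2 + 2 * k)) (-r) (2 * r) i j hi (by push_cast; omega) hj
    (by push_cast; omega)
  refine h1.trans ?_
  push_cast
  apply mul_le_mul_of_nonneg_left _ (by positivity)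
  refine le_trans (le_of_eq ?_) (side_sum hu P r (Ico (-(r : ℤ)) (-(r : ℤ) + 2 * r))
    (fun k => (X, P.2 + 2 * k + 1)) ?_ ?_)
  · refine sum_congr rfl fun k _ => ?_
    have hw : White (X, P.2 + 2 * k + 1) := by
      obtain ⟨x, hx⟩ := hXo
      exact ⟨x + c + k + 1, by simp only; omega⟩
    rw [Kop_r1_sq hw, if_pos hXo]
    have e1 : P.2 + 2 * k + 1 + 1 = P.2 + 2 * (k + 1) := by ring
    have e2 : P.2 + 2 * k + 1 - 1 = P.2 + 2 * k := by ring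
    simp only [e1, e2]
  · intro k _ k' _ h
    simp only [Prod.mk.injEq] at h
    omega
  · intro k hk
    rw [mem_Ico] at hk
    refine ⟨?_, ?_⟩
    · obtain ⟨x, hx⟩ := hXo
      exact ⟨x + c + k + 1, by simp only; omega⟩
    · simp only [dinf_def, abs_eq_max_neg]
      omega

/-- horizontal sides -/
theorem hside {u : Pt → ℝ} (hu : ∀ b, B1 b → b ∉ T.C → u b = 0) {P : Pt} (hP : B1 P) (r : ℕ)
    {Y : ℤ} (hY : Y = P.2 + 2 * r ∨ Y = P.2 - 2 * r) {i j : ℤ} (hi : -(r : ℤ) ≤ i) (hi' : i ≤ r)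
    (hj : -(r : ℤ) ≤ j) (hj' : j ≤ r) :
    (u (P.1 + 2 * i, Y) - u (P.1 + 2 * j, Y)) ^ 2 ≤ 2 * r * ringE T u P r := by
  obtain ⟨⟨a, ha⟩, ⟨c, hc⟩⟩ := hP
  have hYo : Odd Y := by
    rcases hY with h | h
    · exact ⟨c + r, by omega⟩
    · exact ⟨c - r, by omega⟩
  have h1 := sq_diff_le (fun k => u (P.1 + 2 * k, Y)) (-r) (2 * r) i j hi (by push_cast; omega) hj
    (by push_cast; omega)
  refine h1.trans ?_
  push_cast
  apply mul_le_mul_of_nonneg_left _ (by positivity)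
  refine le_trans (le_of_eq ?_) (side_sum hu P r (Ico (-(r : ℤ)) (-(r : ℤ) + 2 * r))
    (fun k => (P.1 + 2 * k + 1, Y)) ?_ ?_)
  · refine sum_congr rfl fun k _ => ?_
    have hw : White (P.1 + 2 * k + 1, Y) := by
      obtain ⟨x, hx⟩ := hYo
      exact ⟨x + a + k + 1, by simp only; omega⟩
    rw [Kop_r1_sq hw, if_neg (by rw [Int.not_odd_iff_even]; exact ⟨a + k + 1, by simp only; omega⟩)]
    have e1 : P.1 + 2 * k + 1 + 1 = P.1 + 2 * (k + 1) := by ring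
    have e2 : P.1 + 2 * k + 1 - 1 = P.1 + 2 * k := by ring
    simp only [e1, e2]
  · intro k _ k' _ h
    simp only [Prod.mk.injEq] at h
    omega
  · intro k hk
    rw [mem_Ico] at hk
    refine ⟨?_, ?_⟩
    · obtain ⟨x, hx⟩ := hYo
      exact ⟨x + a + k + 1, by simp only; omega⟩
    · simp only [dinf_def, abs_eq_max_neg]
      omega

/-- **contour estimate** -/
theorem contour_le {u : Pt → ℝ} (hu : ∀ b, B1 b → b ∉ T.C → u b = 0) {p : Pt}
    (hp : ¬ T.γ.inside p) (r : ℕ) {z : Pt} (hz : B1 z)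
    (hd : dinf (2 * p.1 + 1, 2 * p.2 + 1) z = 2 * r) :
    u z ^ 2 ≤ 32 * r * ringE T u (2 * p.1 + 1, 2 * p.2 + 1) r := by
  set P : Pt := (2 * p.1 + 1, 2 * p.2 + 1) with hPdef
  have hP : B1 P := ⟨⟨p.1, rfl⟩, ⟨p.2, rfl⟩⟩
  set S := ringE T u P r with hS
  have hS0 : 0 ≤ S := ringE_nonneg _ _ _
  have hrS : 0 ≤ (r : ℝ) * S := by positivity
  have key : ∀ z : Pt, B1 z → dinf P z = 2 * r →
      (u z - u (P.1 + 2 * r, P.2 + 2 * r)) ^ 2 ≤ 8 * r * S := by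
    intro z hz hd
    obtain ⟨x, y⟩ := z
    obtain ⟨⟨k, hk⟩, ⟨l, hl⟩⟩ := hz
    simp only at hk hl
    simp only [dinf_def, abs_eq_max_neg] at hd
    have hP1 : P.1 = 2 * p.1 + 1 := rfl
    have hP2 : P.2 = 2 * p.2 + 1 := rfl
    have e1 : x = P.1 + 2 * (k - p.1) := by omega
    have e2 : y = P.2 + 2 * (l - p.2) := by omega
    have hcase : k - p.1 = r ∨ l - p.2 = r ∨ k - p.1 = -r ∨ l - p.2 = -r := by omega
    have b1 : -(r : ℤ) ≤ k - p.1 := by omega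
    have b2 : k - p.1 ≤ r := by omega
    have b3 : -(r : ℤ) ≤ l - p.2 := by omega
    have b4 : l - p.2 ≤ r := by omega
    rw [e1, e2]
    set i := k - p.1 with hi
    set j := l - p.2 with hj
    rcases hcase with h | h | h | h
    · have := vside hu hP r (X := P.1 + 2 * r) (Or.inl rfl) b3 b4
        (by omega : -(r : ℤ) ≤ (r : ℤ)) (le_refl (r : ℤ))
      rw [h]
      linarith
    · have := hside hu hP r (Y := P.2 + 2 * r) (Or.inl rfl) b1 b2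
        (by omega : -(r : ℤ) ≤ (r : ℤ)) (le_refl (r : ℤ))
      rw [h]
      linarith
    · have t1 := vside hu hP r (X := P.1 - 2 * r) (Or.inr rfl) b3 b4
        (by omega : -(r : ℤ) ≤ (r : ℤ)) (le_refl (r : ℤ))
      have t2 := hside hu hP r (Y := P.2 + 2 * r) (Or.inl rfl) (le_refl (-(r : ℤ)))
        (by omega : -(r : ℤ) ≤ (r : ℤ)) (by omega : -(r : ℤ) ≤ (r : ℤ)) (le_refl (r : ℤ))
      have e3 : P.1 + 2 * -(r : ℤ) = P.1 - 2 * r := by ring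
      rw [h, e3]
      rw [e3] at t2
      nlinarith [sq_nonneg ((u (P.1 - 2 * r, P.2 + 2 * j) - u (P.1 - 2 * r, P.2 + 2 * r))
        - (u (P.1 - 2 * r, P.2 + 2 * r) - u (P.1 + 2 * r, P.2 + 2 * r)))]
    · have t1 := hside hu hP r (Y := P.2 - 2 * r) (Or.inr rfl) b1 b2
        (by omega : -(r : ℤ) ≤ (r : ℤ)) (le_refl (r : ℤ))
      have t2 := vside hu hP r (X := P.1 + 2 * r) (Or.inl rfl) (le_refl (-(r : ℤ)))
        (by omega : -(r : ℤ) ≤ (r : ℤ)) (by omega : -(r : ℤ) ≤ (r : ℤ)) (le_refl (r : ℤ))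
      have e3 : P.2 + 2 * -(r : ℤ) = P.2 - 2 * r := by ring
      rw [h, e3]
      rw [e3] at t2
      nlinarith [sq_nonneg ((u (P.1 + 2 * i, P.2 - 2 * r) - u (P.1 + 2 * r, P.2 - 2 * r))
        - (u (P.1 + 2 * r, P.2 - 2 * r) - u (P.1 + 2 * r, P.2 + 2 * r)))]
  -- a zero on the contour
  obtain ⟨q, hq, hqi⟩ : ∃ q : Pt, dinf p q = r ∧ ¬ T.γ.inside q := by
    by_contra hcon
    push Not at hcon
    exact hp (L.sq_contour fun q hq => hcon q hq)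
  have hy1 : B1 (2 * q.1 + 1, 2 * q.2 + 1) := ⟨⟨q.1, rfl⟩, ⟨q.2, rfl⟩⟩
  have hy2 : u (2 * q.1 + 1, 2 * q.2 + 1) = 0 := by
    apply hu _ hy1
    rw [mem_C, mem_B1]
    exact hqi
  have hy3 : dinf P (2 * q.1 + 1, 2 * q.2 + 1) = 2 * r := by
    simp only [dinf_def, abs_eq_max_neg] at hq ⊢
    simp only [hPdef]
    omega
  have k1 := key z hz hd
  have k2 := key _ hy1 hy3
  rw [hy2] at k2
  set c1 := u (P.1 + 2 * r, P.2 + 2 * r) with hc1
  nlinarith [sq_nonneg (u z - 2 * c1)]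

end Vale.Agent.P155.Dom
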