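import Vale.Agent.P155.B.DomE
import Vale.Agent.P155.Skel

/-!
# P155, block B2: the inverse Kasteleyn matrix of a Temperleyan graph, final estimates
-/

namespace Vale.Agent.P155.Dom

open Finset LatCycle Temp G

variable {T : Temp} {w0 : Pt} {A : Pt → ℝ} {n : ℕ} {CA : ℝ}

theorem sum_ringE_le (u : Pt → ℝ) (P : Pt) (r n : ℕ) :
    ∑ j ∈ range n, ringE T u P (r + j) ≤ ∑ w ∈ T.C.filter White, Kop (r1 u) w ^ 2 := by
  classical
  unfold ringE
  simp only [sum_filter (s := T.C.filter White)]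
  rw [sum_comm]
  refine sum_le_sum fun w _ => ?_
  by_cases h : ∃ j ∈ range n, dinf P w = 2 * ((r + j : ℕ) : ℤ)
  · obtain ⟨j, hj, hjw⟩ := h
    rw [sum_eq_single_of_mem j hj, if_pos hjw]
    intro j' _ hne
    rw [if_neg]
    intro h'
    apply hne
    rw [hjw] at h'
    omega
  · push Not at h
    rw [sum_eq_zero fun j hj => if_neg (h j hj)]
    positivity

/-- a direction leading away from `P` -/
theorem exists_dir (P b : Pt) : ∃ s t : ℤ, |s| ≤ 1 ∧ |t| ≤ 1 ∧ ∀ j : ℕ,
    dinf P (b.1 + 2 * (j * s), b.2 + 2 * (j * t)) = dinf P b + 2 * j := by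
  rcases le_total |P.2 - b.2| |P.1 - b.1| with h | h
  · rcases le_total 0 (P.1 - b.1) with h' | h'
    · refine ⟨-1, 0, by simp, by simp, fun j => ?_⟩
      simp only [dinf_def, abs_eq_max_neg] at h ⊢
      omega
    · refine ⟨1, 0, by simp, by simp, fun j => ?_⟩
      simp only [dinf_def, abs_eq_max_neg] at h ⊢
      omega
  · rcases le_total 0 (P.2 - b.2) with h' | h'
    · refine ⟨0, -1, by simp, by simp, fun j => ?_⟩
      simp only [dinf_def, abs_eq_max_neg] at h ⊢
      omega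
    · refine ⟨0, 1, by simp, by simp, fun j => ?_⟩
      simp only [dinf_def, abs_eq_max_neg] at h ⊢
      omega

theorem exists_small1 (hA : IsPlane A) (hCA1 : 1 ≤ CA)
    (hCA : ∀ b w, Black b → White w → |Kp A b w| ≤ CA / (dinf w b : ℤ))
    (hdet : (KM T.V).det ≠ 0) (hw0 : w0 ∈ T.V) (hwh0 : White w0)
    (hn : 4 ≤ n) (hnd : 16 * n ≤ dF T.faceSet w0) (hnd' : dF T.faceSet w0 < 16 * (n + 1)) :
    ∃ b, B1 b ∧ dinf w0 b ≤ 11 * n ∧ |Rg T A w0 n b| ≤ 647 * CA / n := by
  have hn' : (4 : ℝ) ≤ n := by exact_mod_cast hn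
  have hE := energy_Rg hA hCA1 hCA hdet hw0 hwh0 (by omega : 2 ≤ n) (by omega)
  have n0 : 0 ≤ ∑ w ∈ T.C.filter White, Kop (r0 (Rg T A w0 n)) w ^ 2 :=
    sum_nonneg fun _ _ => sq_nonneg _
  obtain ⟨p, hp, hpd⟩ := near_cell T w0
  obtain ⟨b1, _, _, _, hb1, _, hadj, _, _⟩ := pair1 hwh0
  set P : Pt := (2 * p.1 + 1, 2 * p.2 + 1) with hPdef
  obtain ⟨s, t, hs, ht, hst⟩ := exists_dir P b1
  -- the distance from `P` to `b1` is even
  have heven : ∃ r : ℕ, dinf P b1 = 2 * r := by
    obtain ⟨⟨k, hk⟩, ⟨l, hl⟩⟩ := hb1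
    have h0 := dinf_nonneg P b1
    refine ⟨(dinf P b1 / 2).toNat, ?_⟩
    simp only [dinf_def, abs_eq_max_neg] at h0 ⊢
    simp only [hPdef] at h0 ⊢
    omega
  obtain ⟨r, hr⟩ := heven
  have hr2 : r ≤ 8 * n + 8 := by
    have h1 := dinf_triangle P w0 b1
    have h2 := dinf_comm P w0
    have h3 := abs_dinf_sub (w0 := w0) hadj
    rw [abs_le, dinf_self] at h3
    omega
  have hsum := sum_ringE_le (T := T) (Rg T A w0 n) P r n
  obtain ⟨j, hj, hjE⟩ : ∃ j ∈ range n, ringE T (Rg T A w0 n) P (r + j)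
      ≤ (1089 * CA ^ 2 / n ^ 2) / n := by
    apply exists_le_of_sum_le (s := range n) (f := fun j => ringE T (Rg T A w0 n) P (r + j))
      (g := fun _ => (1089 * CA ^ 2 / n ^ 2) / n) ⟨0, mem_range.2 (by omega)⟩
    rw [sum_const, card_range, nsmul_eq_mul, mul_div_cancel₀ _ (by linarith : (n : ℝ) ≠ 0)]
    linarith
  rw [mem_range] at hj
  have hzB : B1 (b1.1 + 2 * (j * s), b1.2 + 2 * (j * t)) := by
    obtain ⟨⟨k, hk⟩, ⟨l, hl⟩⟩ := hb1
    exact ⟨⟨k + j * s, by simp only; rw [hk]; ring⟩, ⟨l + j * t, by simp only; rw [hl]; ring⟩⟩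
  have hzd : dinf P (b1.1 + 2 * (j * s), b1.2 + 2 * (j * t)) = 2 * ((r + j : ℕ) : ℤ) := by
    rw [hst j, hr]; push_cast; ring
  have hc := contour_le (u := Rg T A w0 n) (fun b _ hbC => Rg_off (by omega) hbC) hp (r + j) hzB hzd
  refine ⟨_, hzB, ?_, ?_⟩
  · have h3 := abs_dinf_sub (w0 := w0) hadj
    rw [abs_le, dinf_self] at h3
    have h4 := dinf_triangle w0 b1 (b1.1 + 2 * (j * s), b1.2 + 2 * (j * t))
    have h5 := dinf_double b1 (j * s, j * t)
    simp only at h5
    have h6 : dinf (0, 0) ((j : ℤ) * s, (j : ℤ) * t) ≤ j := by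
      rw [dinf_le_iff]
      simp only [sub_zero, abs_mul, Nat.abs_cast]
      constructor
      · nlinarith [Int.natCast_nonneg j]
      · nlinarith [Int.natCast_nonneg j]
    omega
  · apply abs_le_of_sq_le_sq _ (by positivity)
    refine hc.trans ?_
    have hrj : (((r + j : ℕ) : ℕ) : ℝ) ≤ 12 * n := by
      have : r + j ≤ 12 * n := by omega
      exact_mod_cast this
    have hE0 := ringE_nonneg (T := T) (Rg T A w0 n) P (r + j)
    calc 32 * (((r + j : ℕ) : ℕ) : ℝ) * ringE T (Rg T A w0 n) P (r + j)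
        ≤ 32 * (12 * n) * ((1089 * CA ^ 2 / n ^ 2) / n) := by gcongr
      _ = 418176 * (CA ^ 2 / n ^ 2) := by
          have : (n : ℝ) ≠ 0 := by linarith
          field_simp
          ring
      _ ≤ 418609 * (CA ^ 2 / n ^ 2) := by gcongr; norm_num
      _ = (647 * CA / n) ^ 2 := by
          have : (n : ℝ) ≠ 0 := by linarith
          field_simp
          ring

/-- the interior oscillation bound, with numbers -/
theorem osc_Rg (hA : IsPlane A) (hCA1 : 1 ≤ CA)
    (hCA : ∀ b w, Black b → White w → |Kp A b w| ≤ CA / (dinf w b : ℤ))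
    (hdet : (KM T.V).det ≠ 0) (hw0 : w0 ∈ T.V) (hwh0 : White w0)
    (hn : 4 ≤ n) (hnd : 16 * n ≤ dF T.faceSet w0) {b b' : Pt} (h : (B0 b ∧ B0 b') ∨ (B1 b ∧ B1 b'))
    (h1 : dinf w0 b ≤ 11 * n) (h2 : dinf w0 b' ≤ 11 * n) :
    |Rg T A w0 n b' - Rg T A w0 n b| ≤ 6182 * CA / n := by
  have hn' : (4 : ℝ) ≤ n := by exact_mod_cast hn
  have e : 2 * ((11 * n : ℕ) : ℝ) * (281 * CA / n ^ 2) = 6182 * CA / n := by
    have : (n : ℝ) ≠ 0 := by linarith
    push_cast
    field_simp
    ring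
  rw [← e]
  rcases h with ⟨hb, hb'⟩ | ⟨hb, hb'⟩
  · refine osc0 (w0 := w0) (by positivity) (fun w hw hd => ?_) hb hb' (by push_cast; exact h1)
      (by push_cast; exact h2)
    exact (grad_Rg hA hCA1 hCA hdet hw0 hwh0 (by omega) (by omega) hw (by push_cast at hd; exact hd)).1
  · refine osc1 (w0 := w0) (by positivity) (fun w hw hd => ?_) hb hb' (by push_cast; exact h1)
      (by push_cast; exact h2)
    exact (grad_Rg hA hCA1 hCA hdet hw0 hwh0 (by omega) (by omega) hw (by push_cast at hd; exact hd)).2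

theorem Kp_far (hwh0 : White w0) (hCA1 : 1 ≤ CA)
    (hCA : ∀ b w, Black b → White w → |Kp A b w| ≤ CA / (dinf w b : ℤ)) {k : ℕ} (hk : 1 ≤ k)
    (hn : 1 ≤ n) {b : Pt} (hb : Black b) (h : k * n ≤ dinf w0 b) :
    |Kp A b w0| ≤ CA / n / k := by
  have hn' : (1 : ℝ) ≤ n := by exact_mod_cast hn
  have hk' : (1 : ℝ) ≤ k := by exact_mod_cast hk
  refine (hCA b w0 hb hwh0).trans ?_
  rw [div_div]
  apply div_le_div_of_nonneg_left (by linarith) (by positivity)
  have : ((k * n : ℤ) : ℝ) ≤ ((dinf w0 b : ℤ) : ℝ) := by exact_mod_cast h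
  push_cast at this
  linarith

theorem Rg_near (hn : 1 ≤ n) {b : Pt} (h : dinf w0 b ≤ 14 * n) :
    Rg T A w0 n b = Kinv T.V b w0 - Kp A b w0 := by
  unfold Rg; rw [chi_one hn h, one_mul]

/-- points of a common type adjacent to a common white point -/
theorem ring_of {w p q : Pt} {r : ℕ} (hwp : Adj w p) (hwq : Adj w q) (hp : dinf w0 p ≤ r) :
    dinf w0 q ≤ r + 2 := by
  have h1 := abs_dinf_sub (w0 := w0) hwp
  have h2 := abs_dinf_sub (w0 := w0) hwq
  rw [abs_le] at h1 h2
  omega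

/-- **the (even,even) part** -/
theorem main0 (hA : IsPlane A) (hCA1 : 1 ≤ CA)
    (hCA : ∀ b w, Black b → White w → |Kp A b w| ≤ CA / (dinf w b : ℤ))
    (hdet : (KM T.V).det ≠ 0) (hw0 : w0 ∈ T.V) (hwh0 : White w0)
    (hn : 4 ≤ n) (hnd : 16 * n ≤ dF T.faceSet w0) :
    (∀ b, B0 b → dinf w0 b ≤ 11 * n → |Rg T A w0 n b| ≤ 12366 * (CA / n)) ∧
    (∀ b, B0 b → 10 * n < dinf w0 b → |Kinv T.V b w0| ≤ 12366 * (CA / n)) := by
  have hn' : (4 : ℝ) ≤ n := by exact_mod_cast hn
  have hw0C : w0 ∈ T.C := (white_mem_V hwh0).1 hw0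
  set f : Pt → ℝ := fun b => Kinv T.V b w0 with hf
  have hk0 := wk0_Kinv hdet hw0 hwh0
  rw [← hf] at hk0
  have hx : 0 ≤ CA / n := by positivity
  obtain ⟨p, _, _, _, hp, _, hadj, _, _⟩ := pair0 hwh0
  have hpa := adj_abs hadj
  -- the reference point
  set b1 : Pt := (p.1 + 2 * (5 * n + 1), p.2) with hb1def
  have hb1 : B0 b1 := by
    obtain ⟨⟨k, hk⟩, ⟨l, hl⟩⟩ := hp
    exact ⟨⟨k + (5 * n + 1), by simp only [hb1def]; omega⟩, ⟨l, hl⟩⟩
  have hd1 : 10 * n ≤ dinf w0 b1 ∧ dinf w0 b1 ≤ 11 * n := by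
    simp only [dinf_def, abs_eq_max_neg, hb1def] at hpa ⊢
    omega
  have hosc : ∀ b, B0 b → dinf w0 b ≤ 11 * n →
      |Rg T A w0 n b - Rg T A w0 n b1| ≤ 6182 * (CA / n) := by
    intro b hb hd
    have := osc_Rg hA hCA1 hCA hdet hw0 hwh0 hn hnd (Or.inl ⟨hb1, hb⟩) hd1.2 hd
    rw [mul_div_assoc] at this
    exact this
  have hg : ∀ b, B0 b → 10 * n ≤ dinf w0 b → |Kp A b w0| ≤ CA / n / 10 := by
    intro b hb hd
    have := Kp_far (k := 10) (n := n) hwh0 hCA1 hCA (by norm_num) (by omega) hb.black (by exact_mod_cast hd)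
    exact_mod_cast this
  have hR : ∀ b, dinf w0 b ≤ 14 * n → Rg T A w0 n b = f b - Kp A b w0 := fun b hd =>
    Rg_near (by omega) hd
  set c := f b1 with hc
  set ε := 6183 * (CA / n) with hε
  have hring : ∀ q, B0 q → 10 * n < dinf w0 q → dinf w0 q ≤ 10 * n + 2 → |f q - c| ≤ ε := by
    intro q hq h1 h2
    have k1 := hosc q hq (by omega)
    have k2 := hg q hq (by omega)
    have k3 := hg b1 hb1 hd1.1
    rw [hR q (by omega), hR b1 (by omega)] at k1
    rw [abs_le] at k1 k2 k3 ⊢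
    constructor <;> linarith
  have hnotS : ∀ b, B0 b → Adj w0 b → b ∈ {b : Pt | dinf w0 b ≤ 10 * n} := by
    intro b _ hadj
    have h3 := abs_dinf_sub (w0 := w0) hadj
    rw [abs_le, dinf_self] at h3
    simp only [Set.mem_ofPred_eq]
    omega
  have up : ∀ b ∈ T.C, B0 b → 10 * n < dinf w0 b → f b ≤ c + ε := by
    intro b hbC hb hd
    refine max0 hk0 hwh0 hw0C {b : Pt | dinf w0 b ≤ 10 * n} ?_ (fun b hb hadj => Or.inl (hnotS b hb hadj))
      hbC hb (by simp only [Set.mem_ofPred_eq]; omega)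
    intro w _ _ p q hp hq hwp hwq hpS hqS
    simp only [Set.mem_ofPred_eq] at hpS hqS
    have h1 := ring_of (w0 := w0) (r := 10 * n) hwp hwq (by push_cast; exact hpS)
    have := hring q hq (by omega) (by push_cast at h1; exact h1)
    rw [abs_le] at this
    linarith
  have down : ∀ b ∈ T.C, B0 b → 10 * n < dinf w0 b → c - ε ≤ f b := by
    intro b hbC hb hd
    have := max0 (m := -(c - ε)) hk0.neg hwh0 hw0C {b : Pt | dinf w0 b ≤ 10 * n} ?_
      (fun b hb hadj => Or.inl (hnotS b hb hadj)) hbC hb (by simp only [Set.mem_ofPred_eq]; omega)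
    · linarith
    intro w _ _ p q hp hq hwp hwq hpS hqS
    simp only [Set.mem_ofPred_eq] at hpS hqS
    have h1 := ring_of (w0 := w0) (r := 10 * n) hwp hwq (by push_cast; exact hpS)
    have := hring q hq (by omega) (by push_cast at h1; exact h1)
    rw [abs_le] at this
    linarith
  have hv0 : f T.v0 = 0 := Kinv_not_mem_left fun h => (mem_V'.1 h).2 rfl
  have hv0d : 10 * n < dinf w0 T.v0 := by
    have := v0_far (T := T) (w0 := w0)
    omega
  have u0 := up T.v0 (mem_C.2 (v0_mem T)) v0_B0 hv0d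
  have d0 := down T.v0 (mem_C.2 (v0_mem T)) v0_B0 hv0d
  rw [hv0] at u0 d0
  constructor
  · intro b hb hd
    have k1 := hosc b hb hd
    have k2 := hg b1 hb1 hd1.1
    have k3 := hR b1 (by omega)
    rw [abs_le] at k1 k2 ⊢
    constructor <;> linarith
  · intro b hb hd
    change |f b| ≤ _
    by_cases hbC : b ∈ T.C
    · have k1 := up b hbC hb hd
      have k2 := down b hbC hb hd
      rw [abs_le]
      constructor <;> linarith
    · have : f b = 0 := Kinv_not_mem_left fun h => hbC (V_subset h)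
      rw [this, abs_zero]
      positivity

/-- **the (odd,odd) part** -/
theorem main1 (hA : IsPlane A) (hCA1 : 1 ≤ CA)
    (hCA : ∀ b w, Black b → White w → |Kp A b w| ≤ CA / (dinf w b : ℤ))
    (hdet : (KM T.V).det ≠ 0) (hw0 : w0 ∈ T.V) (hwh0 : White w0)
    (hn : 4 ≤ n) (hnd : 16 * n ≤ dF T.faceSet w0) (hnd' : dF T.faceSet w0 < 16 * (n + 1)) :
    (∀ b, B1 b → dinf w0 b ≤ 11 * n → |Rg T A w0 n b| ≤ 12366 * (CA / n)) ∧
    (∀ b, B1 b → 10 * n < dinf w0 b → |Kinv T.V b w0| ≤ 12366 * (CA / n)) := by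
  have hn' : (4 : ℝ) ≤ n := by exact_mod_cast hn
  set f : Pt → ℝ := fun b => Kinv T.V b w0 with hf
  have hk1 := wk1_Kinv hdet hw0 hwh0
  rw [← hf] at hk1
  have hoff : ∀ b, B1 b → b ∉ T.C → f b = 0 := fun b hb hbC => Kinv_B1_off hdet hw0 hwh0 hb hbC
  have hx : 0 ≤ CA / n := by positivity
  obtain ⟨b1, hb1, hd1, hsm⟩ := exists_small1 hA hCA1 hCA hdet hw0 hwh0 hn hnd hnd'
  rw [mul_div_assoc] at hsm
  have hosc : ∀ b, B1 b → dinf w0 b ≤ 11 * n →
      |Rg T A w0 n b - Rg T A w0 n b1| ≤ 6182 * (CA / n) := by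
    intro b hb hd
    have := osc_Rg hA hCA1 hCA hdet hw0 hwh0 hn hnd (Or.inr ⟨hb1, hb⟩) hd1 hd
    rw [mul_div_assoc] at this
    exact this
  have hg : ∀ b, B1 b → 10 * n ≤ dinf w0 b → |Kp A b w0| ≤ CA / n / 10 := by
    intro b hb hd
    have := Kp_far (k := 10) (n := n) hwh0 hCA1 hCA (by norm_num) (by omega) hb.black (by exact_mod_cast hd)
    exact_mod_cast this
  have hR : ∀ b, dinf w0 b ≤ 14 * n → Rg T A w0 n b = f b - Kp A b w0 := fun b hd =>
    Rg_near (by omega) hd
  set m := 6830 * (CA / n) with hm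
  have hm0 : 0 ≤ m := by positivity
  have hring : ∀ q, B1 q → 10 * n < dinf w0 q → dinf w0 q ≤ 10 * n + 2 → |f q| ≤ m := by
    intro q hq h1 h2
    have k1 := hosc q hq (by omega)
    have k2 := hg q hq (by omega)
    rw [hR q (by omega)] at k1
    rw [abs_le] at k1 k2 hsm ⊢
    constructor <;> linarith
  have hnotS : ∀ b, B1 b → Adj w0 b → b ∈ {b : Pt | dinf w0 b ≤ 10 * n} := by
    intro b _ hadj
    have h3 := abs_dinf_sub (w0 := w0) hadj
    rw [abs_le, dinf_self] at h3
    simp only [Set.mem_ofPred_eq]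
    omega
  constructor
  · intro b hb hd
    have k1 := hosc b hb hd
    rw [abs_le] at k1 hsm ⊢
    constructor <;> linarith
  · intro b hb hd
    change |f b| ≤ _
    have up : f b ≤ m := by
      refine max1 hk1 hwh0 hoff hm0 {b : Pt | dinf w0 b ≤ 10 * n} ?_
        (fun b hb hadj => Or.inl (hnotS b hb hadj)) hb (by simp only [Set.mem_ofPred_eq]; omega)
      intro w _ _ p q hp hq hwp hwq hpS hqS
      simp only [Set.mem_ofPred_eq] at hpS hqS
      have h1 := ring_of (w0 := w0) (r := 10 * n) hwp hwq (by push_cast; exact hpS)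
      have := hring q hq (by omega) (by push_cast at h1; exact h1)
      rw [abs_le] at this
      linarith
    have down : - f b ≤ m := by
      refine max1 (u := fun b => - f b) hk1.neg hwh0 (fun b hb hbC => by simp [hoff b hb hbC]) hm0
        {b : Pt | dinf w0 b ≤ 10 * n} ?_
        (fun b hb hadj => Or.inl (hnotS b hb hadj)) hb (by simp only [Set.mem_ofPred_eq]; omega)
      intro w _ _ p q hp hq hwp hwq hpS hqS
      simp only [Set.mem_ofPred_eq] at hpS hqS
      have h1 := ring_of (w0 := w0) (r := 10 * n) hwp hwq (by push_cast; exact hpS)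
      have := hring q hq (by omega) (by push_cast at h1; exact h1)
      rw [abs_le] at this
      linarith
    rw [abs_le]
    constructor <;> linarith

/-- **the estimates of the inverse Kasteleyn matrix of a Temperleyan graph**, given that the
Kasteleyn matrix is invertible -/
theorem dom_of_det (hdet : ∀ T : Temp, (KM T.V).det ≠ 0) : Skel.B_dom := by
  intro A hA
  obtain ⟨CA, hCA1, hCA⟩ := Kp_bound hA
  refine ⟨250000 * CA, ?_⟩
  intro T w b hw hb hwV _
  have hone := abs_Kinv_le_one (hdet T) hwV hw hb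
  refine ⟨hone, ?_⟩
  set d := dF T.faceSet w with hd
  have hdn : ((dn b w : ℕ) : ℤ) = dinf w b := by rw [dn_cast, dinf_comm]
  have h1d : (0 : ℝ) < 1 + (d : ℝ) := by positivity
  by_cases hsmall : d < 64
  · have hd64 : (1 + (d : ℝ)) ≤ 64 := by
      have : d + 1 ≤ 64 := by omega
      have : ((d + 1 : ℕ) : ℝ) ≤ 64 := by exact_mod_cast this
      push_cast at this
      linarith
    have hbig : 3 * CA ≤ 250000 * CA / (1 + (d : ℝ)) := by
      rw [le_div_iff₀ h1d]
      nlinarith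
    constructor
    · intro _
      have h2 := hCA b w hb hw
      have h3 : (1 : ℝ) ≤ ((dinf w b : ℤ) : ℝ) := by exact_mod_cast dinf_pos_of hb hw
      have h4 : CA / ((dinf w b : ℤ) : ℝ) ≤ CA := div_le_self (by linarith) h3
      have h5 : |Kp A b w| ≤ CA := h2.trans h4
      rw [abs_le] at hone h5 ⊢
      constructor <;> linarith
    · intro _
      linarith
  · push Not at hsmall
    set n := d / 16 with hn
    have hn4 : 4 ≤ n := by omega
    have hnd : 16 * n ≤ d := by omega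
    have hnd' : d < 16 * (n + 1) := by omega
    have hn' : (4 : ℝ) ≤ n := by exact_mod_cast hn4
    have hm : (∀ b, Black b → dinf w b ≤ 11 * n → |Rg T A w n b| ≤ 12366 * (CA / n)) ∧
        (∀ b, Black b → 10 * n < dinf w b → |Kinv T.V b w| ≤ 12366 * (CA / n)) := by
      have m0 := main0 hA hCA1 hCA (hdet T) hwV hw hn4 hnd
      have m1 := main1 hA hCA1 hCA (hdet T) hwV hw hn4 hnd hnd'
      constructor
      · intro b hb hd
        rcases black_iff.1 hb with h | h
        · exact m0.1 b h hd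
        · exact m1.1 b h hd
      · intro b hb hd
        rcases black_iff.1 hb with h | h
        · exact m0.2 b h hd
        · exact m1.2 b h hd
    have hx : 0 ≤ CA / n := by positivity
    have hfin : 12367 * (CA / n) ≤ 250000 * CA / (1 + (d : ℝ)) := by
      rw [le_div_iff₀ h1d]
      have h2 : (1 + (d : ℝ)) ≤ 20 * n := by
        have : d + 1 ≤ 20 * n := by omega
        have : ((d + 1 : ℕ) : ℝ) ≤ ((20 * n : ℕ) : ℝ) := by exact_mod_cast this
        push_cast at this
        linarith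
      calc 12367 * (CA / n) * (1 + d) ≤ 12367 * (CA / n) * (20 * n) := by gcongr
        _ = 247340 * CA := by
          have : (n : ℝ) ≠ 0 := by linarith
          field_simp
          ring
        _ ≤ 250000 * CA := by linarith
    constructor
    · intro h2
      have h3 : dinf w b ≤ 11 * n := by omega
      have h4 := hm.1 b hb h3
      rw [Rg_near (by omega) (by omega)] at h4
      linarith
    · intro h2
      by_cases h3 : 10 * n < dinf w b
      · have := hm.2 b hb h3
        linarith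
      · have h4 := hm.1 b hb (by omega)
        rw [Rg_near (by omega) (by omega)] at h4
        have h5 := Kp_far (k := 1) hw hCA1 hCA (by norm_num) (by omega : 1 ≤ n) hb
          (by push_cast; omega)
        simp only [Nat.cast_one, div_one] at h5
        rw [abs_le] at h4 h5
        have h6 : |Kinv T.V b w| ≤ 12367 * (CA / n) := by
          rw [abs_le]
          constructor <;> linarith
        linarith

end Vale.Agent.P155.Dom
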