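import Vale.Agent.P155.B.Mono
import Vale.Agent.P155.A4.Main
import Vale.Agent.P155.G45.Basic

/-!
# P155, TIGHT: monomer ratios of a conditioned box (MONOGOOD)

`mono_good`: if `Kinv W` is close to the plane kernel in a box, then the monomer ratios of `W` grow
at most linearly in (half of) that box.
-/

namespace Vale.Agent.P155.B3

open Finset Vale.Agent.P155 Vale.Agent.P155.SW Vale.Agent.P155.Skel

/-- lower bound of the inverse of the plane between the chosen neighbours -/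
theorem ker_lower {A : Pt → ℝ} {CA : ℝ} (hCA : 0 ≤ CA)
    (hA : ∀ z : Pt, Odd (z.1 + z.2) → |A z - Alead z| ≤ CA / nsq z)
    {z : Pt} {n : ℕ} (hn7 : 7 ≤ n) (hn : 90 * CA ≤ n) (hzodd : Odd (z.1 + z.2))
    (hz' : (Odd z.1 ∧ (n : ℝ) - 1 ≤ |(z.1 : ℝ)|) ∨ (¬ Odd z.1 ∧ (n : ℝ) - 1 ≤ |(z.2 : ℝ)|))
    (hz1' : |(z.1 : ℝ)| ≤ n + 1) (hz2' : |(z.2 : ℝ)| ≤ n + 1) {δ X : ℝ}
    (hδ : 50 * (1 + n) * δ ≤ 1) (hX : |A z| ≤ X + δ) : 1 / 20 / (1 + (n : ℝ)) ≤ X := by
  have hn0 : (7 : ℝ) ≤ n := by exact_mod_cast hn7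
  have hlow := alead_lower hn7 hz' hz1' hz2'
  have hAz := hA _ hzodd
  have hn1 : (0 : ℝ) ≤ (n : ℝ) - 1 := by linarith
  have hnsq : ((n : ℝ) - 1) ^ 2 ≤ nsq z := by
    unfold nsq
    rcases hz' with h | h
    · have := pow_le_pow_left₀ hn1 h.2 2
      rw [sq_abs] at this
      linarith [sq_nonneg (z.2 : ℝ)]
    · have := pow_le_pow_left₀ hn1 h.2 2
      rw [sq_abs] at this
      linarith [sq_nonneg (z.1 : ℝ)]
  have hN : (0 : ℝ) < 1 + n := by linarith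
  have hT1 : δ ≤ 1 / 50 / (1 + n) := by
    rw [div_div, le_div_iff₀ (by positivity)]
    linarith
  have hT2 : CA / nsq z ≤ 1 / 50 / (1 + n) := by
    have hpos : (0 : ℝ) < ((n : ℝ) - 1) ^ 2 := by
      have : (0 : ℝ) < (n : ℝ) - 1 := by linarith
      positivity
    refine (div_le_div_of_nonneg_left hCA hpos hnsq).trans ?_
    rw [div_div, div_le_div_iff₀ hpos (by positivity), one_mul]
    have h34 : 3 / 4 * (1 + (n : ℝ)) ≤ (n : ℝ) - 1 := by linarith
    have h5 : 90 * CA ≤ 1 + (n : ℝ) := by linarith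
    calc CA * (50 * (1 + (n : ℝ))) ≤ ((1 + (n : ℝ)) / 90) * (50 * (1 + (n : ℝ))) := by
          refine mul_le_mul_of_nonneg_right ?_ (by positivity)
          linarith
      _ = 5 / 9 * (1 + (n : ℝ)) ^ 2 := by ring
      _ ≤ (3 / 4 * (1 + (n : ℝ))) ^ 2 := by nlinarith
      _ ≤ _ := pow_le_pow_left₀ (by positivity) h34 2
  have h2 : |Alead z| ≤ |A z| + CA / nsq z := by
    have := abs_sub_abs_le_abs_sub (Alead z) (A z)
    rw [abs_sub_comm] at this
    linarith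
  have e3 : (3 : ℝ) / 32 / ((n : ℝ) + 1) = 3 / 32 / (1 + n) := by rw [add_comm (n : ℝ) 1]
  rw [e3] at hlow
  have e4 : (3 : ℝ) / 32 / (1 + n) - 1 / 50 / (1 + n) - 1 / 50 / (1 + n)
      = (3 / 32 - 1 / 50 - 1 / 50) / (1 + n) := by ring
  have e5 : (1 : ℝ) / 20 / (1 + n) ≤ (3 / 32 - 1 / 50 - 1 / 50) / (1 + n) :=
    div_le_div_of_nonneg_right (by norm_num) hN.le
  linarith

theorem dn_adj {x u v : Pt} (h : Adj u v) : dn x v ≤ dn x u + 1 := by
  have h1 : dn u v ≤ 1 := by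
    unfold Adj at h
    rw [Int.abs_eq_natAbs, Int.abs_eq_natAbs] at h
    rw [G45.dn_eq]
    omega
  have := G45.dn_tri x u v
  omega

/-- choice of the neighbours -/
theorem choose_nbrs {w b : Pt} (hw : White w) (hb : Black b) (hn7 : 7 ≤ dn b w) :
    ∃ b0 w' : Pt, Adj w b0 ∧ Adj w' b ∧ w ≠ w' ∧ b0 ≠ b ∧
      Odd ((b0 - w').1 + (b0 - w').2) ∧
      ((Odd (b0 - w').1 ∧ ((dn b w : ℕ) : ℝ) - 1 ≤ |((b0 - w').1 : ℝ)|)
        ∨ (¬ Odd (b0 - w').1 ∧ ((dn b w : ℕ) : ℝ) - 1 ≤ |((b0 - w').2 : ℝ)|)) ∧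
      |((b0 - w').1 : ℝ)| ≤ (dn b w : ℕ) + 1 ∧ |((b0 - w').2 : ℝ)| ≤ (dn b w : ℕ) + 1 := by
  set n := dn b w with hndef
  have hD : Odd ((w.1 - b.1) + (w.2 - b.2)) := by
    obtain ⟨k, hk⟩ := hw
    obtain ⟨l, hl⟩ := hb
    exact ⟨k - l, by omega⟩
  have hmax : max (w.1 - b.1).natAbs (w.2 - b.2).natAbs = n := by
    rw [hndef, G45.dn_eq]; omega
  obtain ⟨s, hs, hz, hz1, hz2⟩ := choose_z (w.1 - b.1, w.2 - b.2) hD hmax
  simp only at hz hz1 hz2
  have hadj : Adj w (w.1 + 1, w.2) := by unfold Adj; simp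
  have hadj' : Adj (b.1 + 1 - s, b.2 + s) b := by
    unfold Adj
    rcases hs with rfl | rfl <;> simp
  have ez1 : (((w.1 + 1, w.2) : Pt) - (b.1 + 1 - s, b.2 + s)).1 = w.1 - b.1 + s := by
    simp only [Prod.fst_sub]; ring
  have ez2 : (((w.1 + 1, w.2) : Pt) - (b.1 + 1 - s, b.2 + s)).2 = w.2 - b.2 - s := by
    simp only [Prod.snd_sub]; ring
  have hcast : ∀ k : ℤ, |(k : ℝ)| = ((|k| : ℤ) : ℝ) := fun k => by push_cast; rfl
  have hfar : ∀ u v : Pt, dn b w ≤ dn u v + 1 → u ≠ v := by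
    rintro u v h rfl
    rw [G45.dn_self] at h
    omega
  refine ⟨(w.1 + 1, w.2), (b.1 + 1 - s, b.2 + s), hadj, hadj', ?_, ?_, ?_, ?_, ?_, ?_⟩
  · apply hfar
    have := dn_adj (x := w) hadj'
    have := G45.dn_comm w b
    omega
  · apply (hfar _ _ _).symm
    have := dn_adj (x := b) (adj_comm.1 hadj)
    omega
  · rw [ez1, ez2]
    have e : w.1 - b.1 + s + (w.2 - b.2 - s) = (w.1 - b.1) + (w.2 - b.2) := by ring
    rw [e]; exact hD
  · rw [ez1, ez2, hcast, hcast]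
    rcases hz with h | h
    · left; exact ⟨h.1, by exact_mod_cast h.2⟩
    · right; exact ⟨h.1, by exact_mod_cast h.2⟩
  · rw [ez1, hcast]; exact_mod_cast hz1
  · rw [ez2, hcast]; exact_mod_cast hz2

/-- the far estimate for a general vertex set -/
theorem far_good (hswap : A_swap) (hle : A_le) {A : Pt → ℝ} {CA : ℝ} (hCA : 0 ≤ CA)
    (hA : ∀ z : Pt, Odd (z.1 + z.2) → |A z - Alead z| ≤ CA / nsq z)
    {T : Temp} {V : Finset Pt} (hSub : Sub T V) {x : Pt} {r : ℕ} {δ : ℝ}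
    (hV : ∀ v, dn x v ≤ r → v ∈ V)
    (hK0 : ∀ b w, Black b → White w → dn x b ≤ r → dn x w ≤ r → |Kinv V b w - Kp A b w| ≤ δ)
    {w b : Pt} (hw : White w) (hb : Black b) (hn7 : 7 ≤ dn b w)
    (hn : 90 * CA ≤ dn b w) (hwx : dn x w + 1 ≤ r) (hbx : dn x b + 1 ≤ r)
    (hδ : 50 * (1 + dn b w) * δ ≤ 1) : MD V w b ≤ 40 * (1 + dn b w) := by
  by_cases hZ : Z V = 0
  · unfold MD; rw [hZ, Nat.cast_zero, div_zero]; positivity
  have hZ' : (0 : ℝ) < Z V := by exact_mod_cast Nat.pos_of_ne_zero hZ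
  obtain ⟨b0, w', hadj, hadj', hne1, hne2, hzodd, hz', hz1', hz2'⟩ := choose_nbrs hw hb hn7
  have hw'W : White w' := white_of_adj hb hadj'
  have hb0B : Black b0 := black_of_adj hw hadj
  have hb0x : dn x b0 ≤ r := (dn_adj hadj).trans hwx
  have hw'x : dn x w' ≤ r := (dn_adj (adj_comm.1 hadj')).trans hbx
  have hwV : w ∈ V := hV _ (by omega)
  have hbV : b ∈ V := hV _ (by omega)
  have hw'V : w' ∈ V := hV _ hw'x
  have hb0V : b0 ∈ V := hV _ hb0x
  have hKd := hK0 b0 w' hb0B hw'W hb0x hw'x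
  have hK : 1 / 20 / (1 + ((dn b w : ℕ) : ℝ)) ≤ |Kinv V b0 w'| := by
    refine ker_lower hCA hA hn7 hn hzodd hz' hz1' hz2' hδ ?_
    rw [← abs_Kp]
    have := abs_sub_abs_le_abs_sub (Kp A b0 w') (Kinv V b0 w')
    rw [abs_sub_comm] at this
    linarith
  have hM := hle T V hSub b0 w' hb0V hw'V hb0B hw'W
  have hsw := hswap V w b b0 w' hwV hbV hb0V hw'V hw hw'W hadj hadj' hne1 hne2
  have hsw' : MD V w b * MD V w' b0 ≤ 2 := by
    unfold MD
    rw [div_mul_div_comm, div_le_iff₀ (by positivity)]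
    have e : ({b0, w'} : Finset Pt) = {w', b0} := Finset.pair_comm _ _
    rw [e] at hsw
    have h3 : (Z (V \ {w, b}) : ℝ) * Z (V \ {w', b0}) ≤ 2 * (Z V : ℝ) ^ 2 := by
      exact_mod_cast hsw
    linarith
  have hM' : 1 / 20 / (1 + ((dn b w : ℕ) : ℝ)) ≤ MD V w' b0 := hK.trans hM
  have h20 : (0 : ℝ) < 1 / 20 / (1 + ((dn b w : ℕ) : ℝ)) := by positivity
  have h1 : MD V w b * (1 / 20 / (1 + ((dn b w : ℕ) : ℝ))) ≤ 2 :=
    (mul_le_mul_of_nonneg_left hM' (MD_nonneg _ _ _)).trans hsw'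
  have hN : (0 : ℝ) < 1 + ((dn b w : ℕ) : ℝ) := by positivity
  rw [div_div, mul_one_div, div_le_iff₀ (by positivity)] at h1
  linarith

theorem near_good {V : Finset Pt} {x : Pt} {r : ℕ} (hV : ∀ v, dn x v ≤ r → v ∈ V)
    {w : Pt} (hw : White w) {D0 : ℕ} {B : ℝ} (hB0 : 0 ≤ B) (hd : dn x w + D0 + 5 ≤ r)
    (hB : ∀ b, Black b → D0 ≤ dn b w → dn b w ≤ D0 + 2 → MD V w b ≤ B) :
    ∀ k : ℕ, ∀ b, Black b → D0 ≤ dn b w + k → dn b w ≤ D0 + 2 → MD V w b ≤ 3 ^ k * B := by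
  intro k
  induction k with
  | zero =>
    intro b hb h1 h2
    rw [pow_zero, one_mul]
    exact hB b hb (by omega) h2
  | succ k ih =>
    intro b hb h1 h2
    by_cases h3 : D0 ≤ dn b w + k
    · refine (ih b hb h3 h2).trans ?_
      rw [pow_succ]
      have : 0 ≤ 3 ^ k * B := by positivity
      linarith
    · obtain ⟨w1, ha, hd1, hn⟩ := exists_outward w b
      have hl1 := G45.dn_tri x w b
      have hl2 := G45.dn_tri x w w1
      have hc1 := G45.dn_comm w b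
      have hc2 := G45.dn_comm w w1
      have hbV : b ∈ V := hV _ (by omega)
      have hw1V : w1 ∈ V := hV _ (by omega)
      have hw1W : White w1 := ha.white hb
      have hne : w1 ≠ w := by
        rintro rfl
        rw [G45.dn_self] at hd1
        omega
      have := MD_push hbV hw1V hw hb hw1W hne ha (B := 3 ^ k * B) (by
        intro b1 hb1
        rw [mem_erase] at hb1
        obtain ⟨h4, h5⟩ := hn b1 hb1.2 hb1.1
        exact ih b1 ((mem_nbrs.1 hb1.2).black hw1W) (by omega) (by omega))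
      rw [pow_succ]
      linarith

/-- **MONOGOOD**, distance form -/
theorem mono_good_aux (hswap : A_swap) (hle : A_le) {A : Pt → ℝ} (hA : IsPlane A) :
    ∃ C : ℝ, 0 < C ∧ ∀ (T : Temp) (V : Finset Pt), Sub T V → ∀ (x : Pt) (r : ℕ) (δ : ℝ), C ≤ r →
      (∀ v, dn x v ≤ r → v ∈ V) →
      (∀ b w, Black b → White w → dn x b ≤ r → dn x w ≤ r → |Kinv V b w - Kp A b w| ≤ δ) →
      ∀ w b, White w → Black b → dn x w ≤ r / 2 → dn x b ≤ r / 2 → C * (1 + dn b w) * δ ≤ 1 →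
      MD V w b ≤ C * (1 + dn b w) := by
  obtain ⟨CA0, hA0⟩ := hA.asymp
  have hCA : 0 ≤ max CA0 0 := le_max_right _ _
  have hA1 : ∀ z : Pt, Odd (z.1 + z.2) → |A z - Alead z| ≤ max CA0 0 / nsq z := fun z hz =>
    (hA0 z hz).trans (div_le_div_of_nonneg_right (le_max_left _ _) (by unfold nsq; positivity))
  set CA := max CA0 0
  obtain ⟨D1, hD1⟩ := exists_nat_ge (90 * CA)
  set D0 := max 7 D1 with hD0
  have hD7 : 7 ≤ D0 := le_max_left _ _
  have hDA : 90 * CA ≤ D0 := hD1.trans (by exact_mod_cast le_max_right 7 D1)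
  set B : ℝ := 40 * (1 + ((D0 : ℝ) + 2)) with hBdef
  have hBpos : 0 ≤ B := by rw [hBdef]; positivity
  set C : ℝ := 50 * (D0 + 12) + 3 ^ D0 * B with hC
  have hY : 0 ≤ 3 ^ D0 * B := by positivity
  have hD0' : (0 : ℝ) ≤ D0 := Nat.cast_nonneg _
  have hC0 : 0 < C := by rw [hC]; positivity
  refine ⟨C, hC0, ?_⟩
  intro T V hSub x r δ hCr hV hK w b hw hb hwx hbx hδ
  have hr : 2 * (D0 + 6) ≤ r := by
    have h1 : (2 * ((D0 : ℝ) + 6)) ≤ r := by
      refine le_trans ?_ hCr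
      rw [hC]
      linarith
    exact_mod_cast h1
  have hδ0 : 0 ≤ δ ∨ δ < 0 := le_or_gt 0 δ
  have hfar : ∀ b, Black b → D0 ≤ dn b w → dn x b + 1 ≤ r → 50 * (1 + dn b w) * δ ≤ 1 →
      MD V w b ≤ 40 * (1 + dn b w) := by
    intro b hb h1 h2 h3
    refine far_good hswap hle hCA hA1 hSub hV hK hw hb (hD7.trans h1) ?_ (by omega) h2 h3
    exact hDA.trans (by exact_mod_cast h1)
  have hdn0 : (0 : ℝ) ≤ dn b w := Nat.cast_nonneg _
  rcases le_or_gt D0 (dn b w) with h | h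
  · refine (hfar b hb h (by omega) ?_).trans ?_
    · rcases hδ0 with h0 | h0
      · refine le_trans ?_ hδ
        apply mul_le_mul_of_nonneg_right _ h0
        apply mul_le_mul_of_nonneg_right _ (by positivity)
        rw [hC]; linarith
      · have : 0 ≤ 50 * (1 + (dn b w : ℝ)) := by positivity
        nlinarith
    · refine mul_le_mul_of_nonneg_right ?_ (by positivity)
      rw [hC]; linarith
  · have := near_good hV hw (D0 := D0) hBpos (by omega) (fun b1 hb1 h1 h2 => by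
      have h2' : (dn b1 w : ℝ) ≤ D0 + 2 := by exact_mod_cast h2
      have h3 := G45.dn_tri x w b1
      have h4 := G45.dn_comm w b1
      refine (hfar b1 hb1 h1 (by omega) ?_).trans ?_
      · rcases hδ0 with h0 | h0
        · refine le_trans ?_ hδ
          apply mul_le_mul_of_nonneg_right _ h0
          have h5 : 50 * (1 + (dn b1 w : ℝ)) ≤ C := by rw [hC]; linarith
          have h6 : C * 1 ≤ C * (1 + (dn b w : ℝ)) :=
            mul_le_mul_of_nonneg_left (by linarith) hC0.le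
          linarith
        · have : 0 ≤ 50 * (1 + (dn b1 w : ℝ)) := by positivity
          nlinarith
      · rw [hBdef]; linarith) D0 b hb (by omega) (by omega)
    refine this.trans ?_
    have h3 : 3 ^ D0 * B ≤ C := by rw [hC]; linarith
    have h4 : C * 1 ≤ C * (1 + (dn b w : ℝ)) := mul_le_mul_of_nonneg_left (by linarith) hC0.le
    linarith

/-- **MONOGOOD**, unconditional, unsigned counts, box form -/
theorem mono_good {A : Pt → ℝ} (hA : IsPlane A) :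
    ∃ C : ℝ, 0 < C ∧ ∀ (T : Temp) (V : Finset Pt), Sub T V → ∀ (x : Pt) (r : ℕ) (δ : ℝ), C ≤ r →
      box x r ⊆ V →
      (∀ b w, Black b → White w → b ∈ box x r → w ∈ box x r → |Kinv V b w - Kp A b w| ≤ δ) →
      ∀ w b, White w → Black b → w ∈ box x (r / 2) → b ∈ box x (r / 2) →
      C * (1 + dn b w) * δ ≤ 1 → (Z (V \ {w, b}) : ℝ) ≤ C * (1 + dn b w) * Z V := by
  obtain ⟨C, hC0, hC⟩ := mono_good_aux SW.a_swap A4.a_le hA
  refine ⟨C, hC0, ?_⟩
  intro T V hSub x r δ hCr hV hK w b hw hb hwx hbx hδ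
  have hZ : 0 < Z V := (A4.a_inv T V hSub).2.1
  have h := hC T V hSub x r δ hCr (fun v hv => hV (G45.mem_box.2 hv))
    (fun b w h1 h2 h3 h4 => hK b w h1 h2 (G45.mem_box.2 h3) (G45.mem_box.2 h4))
    w b hw hb (G45.mem_box.1 hwx) (G45.mem_box.1 hbx) hδ
  unfold MD at h
  rwa [div_le_iff₀ (by exact_mod_cast hZ)] at h

end Vale.Agent.P155.B3
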