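import Vale.Agent.P155.F.KuoIter
import Vale.Agent.P155.G45.Basic
import Vale.Agent.P155.A.TempGeo

/-!
# P155, block B3: pushing a black monomer, and points deep inside a Temperleyan graph
-/

namespace Vale.Agent.P155.B3

open Finset Vale.Agent.P155 Vale.Agent.P155.SW

/-- remove the edge at `w1` and match `w1` with the monomer `b` -/
theorem push_pm {V : Finset Pt} {w b w1 b1 : Pt} {m : Pt → Pt} (hbV : b ∈ V) (hw1V : w1 ∈ V)
    (hwb : w ≠ b) (hw1w : w1 ≠ w) (hw1b : w1 ≠ b) (ha : Adj b w1)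
    (hm : IsPM (V \ {w, b}) m) (h1 : m w1 = b1) :
    IsPM (V \ {w, b1}) (join b w1 (cut {w1, b1} m)) := by
  have hw1m : w1 ∈ V \ {w, b} := by
    rw [mem_sdiff, mem_insert, mem_singleton]; exact ⟨hw1V, by tauto⟩
  have hb1m : b1 ∈ V \ {w, b} := h1 ▸ pm_mem hm hw1m
  have hb1 : b1 ∈ V ∧ b1 ≠ w ∧ b1 ≠ b := by
    rw [mem_sdiff, mem_insert, mem_singleton, not_or] at hb1m; exact ⟨hb1m.1, hb1m.2⟩
  have hw1b1 : w1 ≠ b1 := by
    intro h
    have := hm.adj w1 hw1m
    rw [h1, ← h] at this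
    exact adj_irrefl _ this
  have hc := pm_cut (P := {w1, b1}) hm (by
    intro v hv
    rw [mem_insert, mem_singleton] at hv ⊢
    rcases hv with rfl | rfl
    · right; exact h1
    · left; rw [← h1, hm.invol])
  have hset : (V \ {w, b}) \ {w1, b1} = (V \ {w, b1}) \ {b, w1} := by
    ext v
    simp only [mem_sdiff, mem_insert, mem_singleton]
    tauto
  rw [hset] at hc
  refine pm_join ?_ ?_ ha hc
  · rw [mem_sdiff, mem_insert, mem_singleton, not_or]
    exact ⟨hbV, hwb.symm, hb1.2.2.symm⟩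
  · rw [mem_sdiff, mem_insert, mem_singleton, not_or]
    exact ⟨hw1V, hw1w, hw1b1⟩

open Classical in
/-- **pushing a monomer** -/
theorem Z_push {V : Finset Pt} {w b w1 : Pt} (hbV : b ∈ V) (hw1V : w1 ∈ V)
    (hwW : White w) (hbB : Black b) (hw1W : White w1) (hw1w : w1 ≠ w) (ha : Adj b w1) :
    Z (V \ {w, b}) ≤ ∑ b1 ∈ (nbrs w1).erase b, Z (V \ {w, b1}) := by
  have hwb : w ≠ b := ne_of_colours hwW hbB
  have hw1b : w1 ≠ b := ne_of_colours hw1W hbB
  have hw1m : w1 ∈ V \ {w, b} := by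
    rw [mem_sdiff, mem_insert, mem_singleton]; exact ⟨hw1V, by tauto⟩
  have hcov : PM (V \ {w, b}) ⊆ ((nbrs w1).erase b).biUnion
      fun b1 => (PM (V \ {w, b})).filter fun m => m w1 = b1 := by
    intro m hm
    have hm' := mem_PM.1 hm
    rw [mem_biUnion]
    refine ⟨m w1, ?_, mem_filter.2 ⟨hm, rfl⟩⟩
    rw [mem_erase]
    refine ⟨?_, mem_nbrs.2 (hm'.adj w1 hw1m)⟩
    have := pm_mem hm' hw1m
    rw [mem_sdiff, mem_insert, mem_singleton, not_or] at this
    exact this.2.2
  calc Z (V \ {w, b}) = (PM (V \ {w, b})).card := rfl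
    _ ≤ _ := card_le_card hcov
    _ ≤ ∑ b1 ∈ (nbrs w1).erase b, ((PM (V \ {w, b})).filter fun m => m w1 = b1).card :=
        card_biUnion_le
    _ ≤ _ := by
        refine sum_le_sum fun b1 _ => ?_
        refine card_le_card_of_injOn (fun m => join b w1 (cut {w1, b1} m)) ?_ ?_
        · intro m hm
          rw [mem_coe, mem_filter] at hm
          rw [mem_coe, mem_PM]
          exact push_pm hbV hw1V hwb hw1w hw1b ha (mem_PM.1 hm.1) hm.2
        · intro m hm m' hm' heq
          rw [mem_coe, mem_filter] at hm hm'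
          have hpm := mem_PM.1 hm.1
          have hpm' := mem_PM.1 hm'.1
          simp only at heq
          funext v
          by_cases h1 : v = b
          · rw [h1, hpm.off b (by simp), hpm'.off b (by simp)]
          by_cases h2 : v = w1
          · rw [h2, hm.2, hm'.2]
          by_cases h3 : v = b1
          · have e1 : m b1 = w1 := by rw [← hm.2, hpm.invol]
            have e2 : m' b1 = w1 := by rw [← hm'.2, hpm'.invol]
            rw [h3, e1, e2]
          have := congrFun heq v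
          unfold join cut at this
          simpa [h1, h2, h3] using this

/-! ### points deep inside -/

variable {T : Temp}

theorem exists_out (T : Temp) : ∃ q, q ∉ T.faceSet := G45.exists_notMem (Temp.faceSet_finite T)

/-- the fine face `f` lies in the polygon iff its coarse cell is inside -/
theorem mem_faceSet {x y : ℤ} : (x, y) ∈ T.faceSet ↔
    ∃ a b : ℤ, T.γ.inside (a, b) ∧ 2 * a ≤ x ∧ x ≤ 2 * a + 1 ∧ 2 * b ≤ y ∧ y ≤ 2 * b + 1 := by
  constructor
  · rintro ⟨⟨a, b⟩, hf, h1, h2, h3, h4⟩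
    exact ⟨a, b, hf, h1, h2, h3, h4⟩
  · rintro ⟨a, b, hf, h1, h2, h3, h4⟩
    exact ⟨(a, b), hf, h1, h2, h3, h4⟩

/-- next to `v0` there is a face outside -/
theorem exists_out_v0 (T : Temp) : ∃ q, q ∉ T.faceSet ∧ dn T.v0 q ≤ 1 := by
  -- an edge of the cycle at `c i0`
  obtain ⟨p, hp⟩ : ∃ p : Pt, T.γ.c T.i0 = p := ⟨_, rfl⟩
  have hv0 : T.v0 = (2 * p.1, 2 * p.2) := by
    rw [Temp.v0_eq, hp]; rfl
  -- if all four cells at `p` were inside, no edge of the cycle at `p`
  by_contra hcon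
  push Not at hcon
  have hin : ∀ s t : ℤ, (s = 0 ∨ s = -1) → (t = 0 ∨ t = -1) → T.γ.inside (p.1 + s, p.2 + t) := by
    intro s t hs ht
    by_contra hn
    have hout : (2 * p.1 + s, 2 * p.2 + t) ∉ T.faceSet := by
      rw [mem_faceSet]
      rintro ⟨a, b, hi, h1, h2, h3, h4⟩
      have ea : a = p.1 + s := by omega
      have eb : b = p.2 + t := by omega
      rw [ea, eb] at hi
      exact hn hi
    have := hcon _ hout
    rw [hv0, G45.dn_eq] at this
    simp only at this
    omega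
  have h00 := hin 0 0 (Or.inl rfl) (Or.inl rfl)
  have h10 := hin (-1) 0 (Or.inr rfl) (Or.inl rfl)
  have h01 := hin 0 (-1) (Or.inl rfl) (Or.inr rfl)
  have h11 := hin (-1) (-1) (Or.inr rfl) (Or.inr rfl)
  simp only [add_zero, ← sub_eq_add_neg] at h00 h10 h01 h11
  have hedge : T.γ.edge p (T.γ.c (T.i0 + 1)) := ⟨T.i0, Or.inl ⟨hp, rfl⟩⟩
  rcases LatCycle.adj_cases hedge.adj with e | e | e | e
  · have he : T.γ.hedge p.1 p.2 := by rw [LatCycle.hedge_iff, ← e]; exact hedge
    exact (LatCycle.inside_iff_h' _ _ he).1 h00 h01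
  · have he : T.γ.hedge (p.1 - 1) p.2 := by
      rw [LatCycle.hedge_iff, sub_add_cancel, ← e]; exact LatCycle.edge_comm.1 hedge
    exact (LatCycle.inside_iff_h' _ _ he).1 h10 h11
  · have he : T.γ.vedge p.1 p.2 := by rw [LatCycle.vedge_iff, ← e]; exact hedge
    exact (LatCycle.inside_iff_v' _ _ he).1 h00 h10
  · have he : T.γ.vedge p.1 (p.2 - 1) := by
      rw [LatCycle.vedge_iff, sub_add_cancel, ← e]; exact LatCycle.edge_comm.1 hedge
    exact (LatCycle.inside_iff_v' _ _ he).1 h01 h11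

/-- a point at distance at least two from the outside faces is a vertex of the graph -/
theorem mem_V_of_dF {v : Pt} (h : 2 ≤ dF T.faceSet v) : v ∈ T.V := by
  rw [Temp.mem_V]
  constructor
  · have hv : v ∈ T.faceSet := G45.mem_of_dF_pos (by omega)
    obtain ⟨f, hf, h1, h2, h3, h4⟩ := hv
    exact ⟨f, hf, h1, by omega, h3, by omega⟩
  · rintro rfl
    obtain ⟨q, hq, hd⟩ := exists_out_v0 T
    have := G45.dF_le (x := T.v0) hq
    omega

end Vale.Agent.P155.B3
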